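import Vale.Agent.P167.H192.TA.Stage

/-!
# P167, block TWO-ARM, part 5: the boundary two-arm bound with exponent 1

`two_arm`: `μ (HX true b r R ∩ HX false b r R) ≤ C * r / R`.
-/

namespace Vale.Agent.P167.H192.TA

open MeasureTheory Vale.Agent.P145.FB Vale.Agent.P153 Vale.Agent.P153.Topo Vale.Agent.P167
  Vale.Agent.P167.H871 Vale.Agent.P167.H632 Vale.Agent.P167.H558
open Relation

/-! ### Crossings with squares of the half annulus -/

/-- Crossing of colour `c` with squares of the half annulus. -/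
def Xc (c : Bool) (b : Pt) (r R : ℤ) : Set Cfg :=
  {ω | ∃ y y', y ∈ sr b r R ∧ (y.1 + y.2) % 2 = pr c ∧ nm (y - b) ≤ r ∧
    Pw (cs c ω ∩ dq b r R) y y' ∧ R ≤ nm (y' - b)}

theorem Xc_of_HX {c : Bool} {b : Pt} {r R : ℤ} {ω : Cfg} (h : ω ∈ HX c b r R) :
    ω ∈ Xc c b r R := by
  obtain ⟨y, y', h1, h2, h3, h4⟩ := h
  have key : ∃ y0, y0 ∈ sr b r R ∧ (y0.1 + y0.2) % 2 = pr c ∧ nm (y0 - b) ≤ r ∧
      Pw (cs c ω ∩ dq b r R) y0 y' := by
    obtain ⟨h0, h4⟩ := h4
    clear h3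
    induction h4 with
    | refl => exact ⟨y, by rw [sr_eq]; exact h0, h1, h2.le, ReflTransGen.refl⟩
    | @tail x z hx hxz ih =>
      obtain ⟨y0, g1, g2, g3, g4⟩ := ih
      by_cases hz : nm (z - b) ≤ r
      · refine ⟨z, by rw [sr_eq]; exact hxz.2, ?_, hz, ReflTransGen.refl⟩
        have := g4.parity
        obtain ⟨⟨p1, p2, -⟩, -⟩ := hxz
        omega
      · refine ⟨y0, g1, g2, g3, g4.tail ⟨hxz.1.1, hxz.1.2.1, hxz.1.2.2, ?_⟩⟩
        have hxs := g4.mem_sr g1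
        have hzs : z ∈ sr b r R := by rw [sr_eq]; exact hxz.2
        have hz' : r + 1 ≤ nm (z - b) := by omega
        rw [le_nm] at hz'
        obtain ⟨⟨p1, p2, -⟩, -⟩ := hxz
        simp only [sr, dq, Set.mem_ofPred_eq, Prod.fst_sub, Prod.snd_sub] at *
        omega
  obtain ⟨y0, g1, g2, g3, g4⟩ := key
  exact ⟨y0, y', g1, g2, g3, g4, h3.ge⟩

/-- A crossing of colour `!c` excludes the paths of colour `c` between the rays. -/
theorem no_cross {c : Bool} {b : Pt} {r R : ℤ} (hr : 1 ≤ r) (hrR : r ≤ R) {ω : Cfg}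
    (h : ω ∈ Xc (!c) b r R) {s : Bool} {p q : Pt} (hp : p ∈ ray s c b r R)
    (hq : q ∈ ray (!s) c b r R) : ¬ Pw (cs c ω ∩ dq b r R) p q := by
  intro hpq
  obtain ⟨y, y', h1, h2, h3, h4, h5⟩ := h
  have e1 : (cs (!c) ω)ᶜ = cs c ω := by rw [cs_compl, Bool.not_not]
  have e2 : 1 - pr (!c) = pr c := by rw [pr_not]; ring
  obtain ⟨p1, p2, p3, p4⟩ := hp
  obtain ⟨q1, q2, q3, q4⟩ := hq
  have p1' := p1
  have q1' := q1
  simp only [sr, Set.mem_ofPred_eq] at p1' q1'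
  cases s
  · simp only [sgn, Bool.not_false, if_true, Bool.false_eq_true, if_false] at p3 q3
    refine excl (F := cs (!c) ω) (pr_or _) hr hrR h1 h3 h5 h2 h4 p1 (by omega) p2
      (by rw [e2]; exact p4) (q := q) (by omega) q2 (by rw [e1]; exact hpq)
  · simp only [sgn, Bool.not_true, if_true, Bool.false_eq_true, if_false] at p3 q3
    refine excl (F := cs (!c) ω) (pr_or _) hr hrR h1 h3 h5 h2 h4 q1 (by omega) q2
      (by rw [e2]; exact q4) (q := p) (by omega) p2 (by rw [e1]; exact hpq.symm)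

/-! ### Stage 1 -/

/-- The cluster of colour `c` of the left ray does not touch the right ray and contains a
crossing. -/
def Y1 (c : Bool) (b : Pt) (r R : ℤ) (ω : Cfg) : Prop :=
  (∀ q ∈ Kl c b r R (ray false c b r R) ω, q ∉ ray true c b r R) ∧
    ∃ y ∈ Kl c b r R (ray false c b r R) ω, nm (y - b) ≤ r ∧
      ∃ y' ∈ Kl c b r R {y} ω, R ≤ nm (y' - b)

theorem past_Y1 (c : Bool) (b : Pt) (r R : ℤ) :
    Past (Rl c b r R (ray false c b r R)) (Y1 c b r R) := by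
  intro ω ω' h
  have h1 : Kl c b r R (ray false c b r R) ω' = Kl c b r R (ray false c b r R) ω := past_Kl ω ω' h
  unfold Y1
  rw [h1]
  have h2 : ∀ y ∈ Kl c b r R (ray false c b r R) ω, Kl c b r R {y} ω' = Kl c b r R {y} ω :=
    fun y hy => Kl_point h hy
  refine propext ⟨?_, ?_⟩
  · rintro ⟨g1, y, g2, g3, g4⟩
    rw [h2 y g2] at g4
    exact ⟨g1, y, g2, g3, g4⟩
  · rintro ⟨g1, y, g2, g3, g4⟩
    rw [← h2 y g2] at g4
    exact ⟨g1, y, g2, g3, g4⟩

theorem Xc_of_Y1 {c : Bool} {b : Pt} {r R : ℤ} {ω : Cfg} (h : Y1 c b r R ω) :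
    ω ∈ Xc c b r R := by
  obtain ⟨-, y, hy, h1, y', hy', h2⟩ := h
  obtain ⟨p, hp, hpy⟩ := mem_Kl.1 hy
  obtain ⟨y0, hy0, hyy'⟩ := mem_Kl.1 hy'
  rw [Set.mem_singleton_iff] at hy0
  subst hy0
  exact ⟨y0, y', hpy.mem_sr hp.1, by rw [← hp.2.2.2]; exact hpy.parity.symm, h1, hyy', h2⟩

/-! ### Stage 2 -/

/-- The cluster of colour `c` of the right ray does not touch the left ray and joins the inner part
to the outer part of the right ray. -/
def Y2 (c : Bool) (b : Pt) (r R m1 m2 : ℤ) (ω : Cfg) : Prop :=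
  (∀ q ∈ Kl c b r R (ray true c b r R) ω, q ∉ ray false c b r R) ∧
    ∃ t t', r ≤ t ∧ t ≤ m1 ∧ m2 ≤ t' ∧ t' ≤ R ∧ ((bp b true t).1 + (bp b true t).2) % 2 = pr c ∧
      bp b true t' ∈ Kl c b r R {bp b true t} ω

theorem bp_ray {c : Bool} {b : Pt} {s : Bool} {r R t : ℤ} (hr : 1 ≤ r) (h1 : r ≤ t) (h2 : t ≤ R)
    (hp : ((bp b s t).1 + (bp b s t).2) % 2 = pr c) : bp b s t ∈ ray s c b r R := by
  refine ⟨bp_sr h1 h2 (by omega), rfl, ?_, hp⟩
  simp only [bp]
  rcases sgn_or s with e | e <;> rw [e] <;> omega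

theorem past_Y2 (c : Bool) (b : Pt) {r R m1 m2 : ℤ} (hr : 1 ≤ r) (hm : m1 ≤ R) :
    Past (Rl c b r R (ray true c b r R)) (Y2 c b r R m1 m2) := by
  intro ω ω' h
  have h1 : Kl c b r R (ray true c b r R) ω' = Kl c b r R (ray true c b r R) ω := past_Kl ω ω' h
  unfold Y2
  rw [h1]
  have h2 : ∀ t, r ≤ t → t ≤ m1 → ((bp b true t).1 + (bp b true t).2) % 2 = pr c →
      Kl c b r R {bp b true t} ω' = Kl c b r R {bp b true t} ω := by
    intro t ht1 ht2 htp
    exact Kl_point h (Cl_base (bp_ray hr ht1 (by omega) htp))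
  refine propext ⟨?_, ?_⟩
  · rintro ⟨g1, t, t', g2, g3, g4, g5, g6, g7⟩
    rw [h2 t g2 g3 g6] at g7
    exact ⟨g1, t, t', g2, g3, g4, g5, g6, g7⟩
  · rintro ⟨g1, t, t', g2, g3, g4, g5, g6, g7⟩
    rw [← h2 t g2 g3 g6] at g7
    exact ⟨g1, t, t', g2, g3, g4, g5, g6, g7⟩

theorem Pe_of_Y2 {c : Bool} {b : Pt} {r R m1 m2 : ℤ} {ω : Cfg} (h : Y2 c b r R m1 m2 ω) :
    ω ∈ Pe true c b r R m1 m2 := by
  obtain ⟨-, t, t', g2, g3, g4, g5, g6, g7⟩ := h
  obtain ⟨p, hp, hpp⟩ := mem_Kl.1 g7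
  rw [Set.mem_singleton_iff] at hp
  subst hp
  exact ⟨t, t', g2, g3, g4, g5, g6, hpp⟩

theorem Y2_of {c : Bool} {b : Pt} {r R m1 m2 : ℤ} (hr : 1 ≤ r) (hrR : r ≤ R) {ω : Cfg}
    (h : ω ∈ Pe true c b r R m1 m2) (h' : ω ∈ Xc (!c) b r R) : Y2 c b r R m1 m2 ω := by
  obtain ⟨t, t', g2, g3, g4, g5, g6, g7⟩ := h
  refine ⟨?_, t, t', g2, g3, g4, g5, g6, mem_Kl.2 ⟨_, rfl, g7⟩⟩
  intro q hq hq'
  obtain ⟨p, hp, hpq⟩ := mem_Kl.1 hq
  exact no_cross hr hrR h' hp hq' hpq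

/-- The event of the counting argument. -/
def E3 (c : Bool) (b : Pt) (r R m1 m2 : ℤ) : Set Cfg :=
  Pe true (!c) b r R m1 m2 ∩ Pe false c b r R m1 m2

/-- **Both stages.** -/
theorem stages {c0 : ℝ} (hc0 : 0 < c0)
    (hc : ∀ (c : Bool) (b : Pt) (r R : ℤ), 1 ≤ r → 8 * r ≤ R → c0 ≤ μ.real (HC c b r R))
    {c : Bool} {b : Pt} {r R : ℤ} (hr : 1 ≤ r) (hR : 8 * r + 1 < R / 8) :
    c0 ^ 4 * μ.real {ω | Y1 c b r R ω} ≤ μ.real (E3 c b r R (8 * r) (R / 8)) := by
  have hp := fair_mu.prob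
  have h1 := stage hc0 hc (s := false) (c := c) hr hR (past_Y1 c b r R) (fun ω h => h.1)
  have h2 := stage hc0 hc (s := true) (c := !c) hr hR
    (past_Y2 (!c) b (m1 := 8 * r) (m2 := R / 8) hr (by omega)) (fun ω h => h.1)
  rw [Bool.not_false] at h1
  rw [Bool.not_true, Bool.not_not] at h2
  have h3 : μ.real ({ω | Y1 c b r R ω} ∩ Pe true (!c) b r R (8 * r) (R / 8)) ≤
      μ.real {ω | Y2 (!c) b r R (8 * r) (R / 8) ω} := by
    refine measureReal_mono ?_
    rintro ω ⟨g1, g2⟩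
    refine Y2_of hr (by omega) g2 ?_
    rw [Bool.not_not]
    exact Xc_of_Y1 g1
  have h4 : μ.real ({ω | Y2 (!c) b r R (8 * r) (R / 8) ω} ∩ Pe false c b r R (8 * r) (R / 8)) ≤
      μ.real (E3 c b r R (8 * r) (R / 8)) := by
    refine measureReal_mono ?_
    rintro ω ⟨g1, g2⟩
    exact ⟨Pe_of_Y2 g1, g2⟩
  calc c0 ^ 4 * μ.real {ω | Y1 c b r R ω} = c0 ^ 2 * (c0 ^ 2 * μ.real {ω | Y1 c b r R ω}) := by ring
    _ ≤ c0 ^ 2 * μ.real {ω | Y2 (!c) b r R (8 * r) (R / 8) ω} :=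
        mul_le_mul_of_nonneg_left (h1.trans h3) (by positivity)
    _ ≤ _ := h2.trans h4

/-- Two arms give one of the events `Y1`. -/
theorem two_sub {b : Pt} {r R : ℤ} (hr : 1 ≤ r) (hrR : r + 1 < R) {ω : Cfg}
    (h1 : ω ∈ HX true b r R) (h2 : ω ∈ HX false b r R) : Y1 true b r R ω ∨ Y1 false b r R ω := by
  have hX : ∀ c, ω ∈ Xc c b r R := by
    intro c
    cases c
    · exact Xc_of_HX h2
    · exact Xc_of_HX h1
  have hray : ∀ (c : Bool) (p : Pt), p ∈ sr b r R → p.1 ≤ b.1 - r → p.2 = b.2 →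
      (p.1 + p.2) % 2 = pr c → p ∈ ray false c b r R := by
    intro c p g1 g2 g3 g4
    refine ⟨g1, g3, ?_, g4⟩
    simp only [sgn, Bool.false_eq_true, if_false]
    omega
  have key := left_cross (ω := ω) (b := b) hr hrR (by
    intro c p q g1 g2 g3 g4 g5 g6
    by_contra hcon
    refine no_cross hr (by omega) (hX (!c)) (s := false) (hray c p g1 g2 g3 g4) ?_ g5
    refine ⟨g5.mem_sr g1, g6, ?_, by rw [← g4]; exact g5.parity.symm⟩
    simp only [sgn, Bool.not_false, if_true]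
    omega)
  obtain ⟨c, p, y, y', g1, g2, g3, g4, g5, g6, g7, g8⟩ := key
  have hp := hray c p g1 g2 g3 g4
  have hY : Y1 c b r R ω := by
    refine ⟨?_, y, mem_Kl.2 ⟨p, hp, g5⟩, g6, y', mem_Kl.2 ⟨y, rfl, g7⟩, g8⟩
    intro q hq hq'
    obtain ⟨p', hp', hpq⟩ := mem_Kl.1 hq
    exact no_cross hr (by omega) (hX (!c)) (s := false) hp' hq' hpq
  cases c
  · exact Or.inr hY
  · exact Or.inl hY

/-! ### Counting -/

/-- The events of different blocks exclude each other. -/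
theorem E3_disj {c : Bool} {b : Pt} {r R m2 m : ℤ} (hr : 1 ≤ r) (h1 : 16 * r < m) (h2 : m ≤ m2)
    (hR : 0 ≤ R) {ω : Cfg} (h : ω ∈ E3 c b r R (8 * r) m2)
    (h' : ω ∈ E3 c (b.1 + m, b.2) r R (8 * r) m2) : False := by
  obtain ⟨t1, t1', g1, g2, g3, g4, g5, g6⟩ := h.1
  obtain ⟨t2, t2', k1, k2, k3, k4, k5, k6⟩ := h'.2
  simp only [bp, sgn, if_true, Bool.false_eq_true, if_false, one_mul] at g5 g6 k5 k6
  have e1 : (cs c ω)ᶜ = cs (!c) ω := cs_compl c ω
  refine exclH (F := cs c ω) (b2 := b.2) (a := b.1 - R) (c := b.1 + m + R) (d := b.2 + R)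
    (e := pr c) (x1 := b.1 + m + -1 * t2') (x2 := b.1 + t1) (x3 := b.1 + m + -1 * t2)
    (x4 := b.1 + t1') (pr_or c) (by omega) (by omega) (by omega) (by omega) (by omega) (by omega)
    ?_ ?_ (k6.symm.mono ?_) ?_
  · have := k6.parity
    dsimp only at this
    omega
  · rw [g5, pr_not]
  · rintro v ⟨hv1, hv2⟩
    refine ⟨hv1, ?_⟩
    simp only [dq, bq, Set.mem_ofPred_eq] at hv2 ⊢
    omega
  · rw [e1]
    refine g6.mono ?_
    rintro v ⟨hv1, hv2⟩
    refine ⟨hv1, ?_⟩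
    simp only [dq, bq, Set.mem_ofPred_eq] at hv2 ⊢
    omega

/-- Shift of the squares. -/
def shk (k : ℤ) : Pt ≃ Pt where
  toFun w := (w.1 + k, w.2)
  invFun w := (w.1 - k, w.2)
  left_inv w := by simp
  right_inv w := by simp

theorem pw_shift {c : Bool} {b : Pt} {r R k : ℤ} {ω : Cfg} {u v : Pt}
    (h : Pw (cs c (fun w => ω (w.1 + k, w.2)) ∩ dq b r R) u v) :
    Pw (cs c ω ∩ dq (b.1 + k, b.2) r R) (u.1 + k, u.2) (v.1 + k, v.2) := by
  induction h with
  | refl => exact ReflTransGen.refl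
  | @tail x y _ hxy ih =>
    obtain ⟨h1, h2, h3, h4⟩ := hxy
    refine ih.tail ⟨by dsimp only; omega, h2, ?_⟩
    have e : min (x.1 + k) (y.1 + k) = min x.1 y.1 + k := by omega
    dsimp only
    rw [e]
    refine ⟨h3, ?_⟩
    simp only [dq, Set.mem_ofPred_eq] at h4 ⊢
    omega

theorem Pe_shift {s c : Bool} {b : Pt} {r R m1 m2 k : ℤ} (hk : k % 2 = 0) {ω : Cfg}
    (h : (fun w => ω (w.1 + k, w.2)) ∈ Pe s c b r R m1 m2) :
    ω ∈ Pe s c (b.1 + k, b.2) r R m1 m2 := by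
  obtain ⟨t, t', g1, g2, g3, g4, g5, g6⟩ := h
  have e : ∀ t, ((bp b s t).1 + k, (bp b s t).2) = bp (b.1 + k, b.2) s t := by
    intro t
    refine Prod.ext ?_ rfl
    simp only [bp]
    ring
  refine ⟨t, t', g1, g2, g3, g4, ?_, ?_⟩
  · rw [← e]
    dsimp only
    omega
  · rw [← e, ← e]
    exact pw_shift g6

theorem dep_E3 {c : Bool} {b : Pt} {r R m1 m2 : ℤ} : Dep (dF b r R) (E3 c b r R m1 m2) :=
  dep_Pe.inter dep_Pe

theorem E3_shift {c : Bool} {b : Pt} {r R m1 m2 k : ℤ} (hk : k % 2 = 0) :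
    μ.real (E3 c b r R m1 m2) ≤ μ.real (E3 c (b.1 + k, b.2) r R m1 m2) := by
  have hp := fair_mu.prob
  rw [← fair_mu.symm (dep_E3 (c := c) (b := b) (r := r) (R := R) (m1 := m1) (m2 := m2)) (shk k)
    (fun _ => false)]
  refine measureReal_mono ?_
  intro ω hω
  have e : (fun w => xor (ω ((shk k) w)) false) = fun w => ω (w.1 + k, w.2) := by
    funext w
    simp [shk]
  rw [Set.mem_ofPred_eq, e] at hω
  exact ⟨Pe_shift hk hω.1, Pe_shift hk hω.2⟩

/-- **Counting.** -/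
theorem E3_le {c : Bool} {b : Pt} {r R m2 : ℤ} (hr : 1 ≤ r) (hR : 0 ≤ R) (n : ℕ)
    (hn : 32 * r * n ≤ m2) : (n : ℝ) * μ.real (E3 c b r R (8 * r) m2) ≤ 1 := by
  have hp := fair_mu.prob
  have h1 : ∑ j ∈ Finset.range n, μ.real (E3 c (b.1 + 32 * r * j, b.2) r R (8 * r) m2) =
      μ.real (⋃ j ∈ Finset.range n, E3 c (b.1 + 32 * r * j, b.2) r R (8 * r) m2) := by
    rw [measureReal_biUnion_finset]
    · intro i hi j hj hij
      rw [Finset.coe_range, Set.mem_Iio] at hi hj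
      rw [Function.onFun, Set.disjoint_left]
      intro ω h h'
      have key : ∀ i j : ℕ, i < j → j < n → ω ∈ E3 c (b.1 + 32 * r * i, b.2) r R (8 * r) m2 →
          ω ∈ E3 c (b.1 + 32 * r * j, b.2) r R (8 * r) m2 → False := by
        intro i j hij hj h h'
        have hij' : (i : ℤ) + 1 ≤ j := by exact_mod_cast hij
        have hj' : (j : ℤ) ≤ n := by exact_mod_cast hj.le
        have hi0 : (0 : ℤ) ≤ i := by positivity
        refine E3_disj (b := (b.1 + 32 * r * i, b.2)) (m := 32 * r * (j - i)) hr (by nlinarith)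
          (by nlinarith) hR h ?_
        have e : b.1 + 32 * r * i + 32 * r * (j - i) = b.1 + 32 * r * (j : ℤ) := by ring
        dsimp only
        rw [e]
        exact h'
      rcases lt_or_gt_of_ne hij with h3 | h3
      · exact key i j h3 hj h h'
      · exact key j i h3 hi h' h
    · intro j _
      exact dep_E3.meas
  have h2 : ∀ j ∈ Finset.range n, μ.real (E3 c b r R (8 * r) m2) ≤
      μ.real (E3 c (b.1 + 32 * r * j, b.2) r R (8 * r) m2) := by
    intro j _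
    refine E3_shift ?_
    have e : 32 * r * (j : ℤ) = 2 * (16 * r * j) := by ring
    rw [e]
    omega
  have h3 := Finset.sum_le_sum h2
  rw [Finset.sum_const, Finset.card_range, nsmul_eq_mul, h1] at h3
  exact h3.trans measureReal_le_one

/-- **Boundary two-arm bound, exponent 1.** -/
theorem two_arm : ∃ C : ℝ, 0 < C ∧ ∀ (b : Pt) (r R : ℤ), 1 ≤ r → r ≤ R →
    μ.real (HX true b r R ∩ HX false b r R) ≤ C * ((r : ℝ) / R) := by
  have hp := fair_mu.prob
  obtain ⟨c0, hc0, hc⟩ := hc_ge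
  refine ⟨max 1024 (2 * 1024 / c0 ^ 4), by positivity, fun b r R hr hrR => ?_⟩
  have hr' : (1 : ℝ) ≤ r := by exact_mod_cast hr
  have hR' : (r : ℝ) ≤ R := by exact_mod_cast hrR
  have hRp : (0 : ℝ) < R := by linarith
  by_cases hbig : R < 512 * r
  · have h1 : (R : ℝ) < 512 * r := by exact_mod_cast hbig
    have h2 : (1 : ℝ) ≤ 1024 * (r / R) := by
      rw [← mul_div_assoc, le_div_iff₀ hRp]
      linarith
    calc μ.real (HX true b r R ∩ HX false b r R) ≤ 1 := measureReal_le_one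
      _ ≤ 1024 * ((r : ℝ) / R) := h2
      _ ≤ _ := by
        refine mul_le_mul_of_nonneg_right (le_max_left _ _) (by positivity)
  · push Not at hbig
    have hm : 8 * r + 1 < R / 8 := by omega
    obtain ⟨n, hn⟩ : ∃ n : ℕ, (n : ℤ) = R / (256 * r) - 1 := by
      have : 1 ≤ R / (256 * r) := by
        rw [Int.le_ediv_iff_mul_le (by omega)]
        omega
      exact ⟨(R / (256 * r) - 1).toNat, by omega⟩
    have hn1 : 32 * r * n ≤ R / 8 := by
      have h1 : R / (256 * r) * (256 * r) ≤ R := Int.ediv_mul_le R (by omega)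
      rw [Int.le_ediv_iff_mul_le (by norm_num), hn]
      nlinarith
    have hn2 : (R : ℝ) ≤ 1024 * r * n := by
      have h1 : R < (R / (256 * r) + 1) * (256 * r) := Int.lt_ediv_add_one_mul_self R (by omega)
      have h2 : 2 ≤ R / (256 * r) := by
        rw [Int.le_ediv_iff_mul_le (by omega)]
        omega
      have h3 : R ≤ 1024 * r * n := by
        rw [hn]
        nlinarith
      exact_mod_cast h3
    have hnp : (0 : ℝ) < n := by
      by_contra hcon
      push Not at hcon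
      have : (1024 * r * n : ℝ) ≤ 0 := mul_nonpos_of_nonneg_of_nonpos (by positivity) hcon
      linarith
    have hE : ∀ c, μ.real (E3 c b r R (8 * r) (R / 8)) ≤ 1024 * (r / R) := by
      intro c
      have h1 := E3_le (c := c) (b := b) (R := R) (m2 := R / 8) hr (by omega) n hn1
      have h2 : μ.real (E3 c b r R (8 * r) (R / 8)) ≤ 1 / n := by
        rw [le_div_iff₀ hnp]
        linarith
      refine h2.trans ?_
      rw [← mul_div_assoc, div_le_div_iff₀ hnp hRp]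
      linarith
    have hY : ∀ c, μ.real {ω | Y1 c b r R ω} ≤ 1024 / c0 ^ 4 * (r / R) := by
      intro c
      have h1 := (stages hc0 hc (c := c) (b := b) hr hm).trans (hE c)
      have h2 : μ.real {ω | Y1 c b r R ω} ≤ 1024 * (r / R) / c0 ^ 4 := by
        rw [le_div_iff₀ (by positivity)]
        linarith
      refine h2.trans (le_of_eq ?_)
      ring
    have h3 : μ.real (HX true b r R ∩ HX false b r R) ≤
        μ.real {ω | Y1 true b r R ω} + μ.real {ω | Y1 false b r R ω} := by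
      refine le_trans (measureReal_mono ?_) (measureReal_union_le _ _)
      rintro ω ⟨g1, g2⟩
      exact two_sub hr (by omega) g1 g2
    calc μ.real (HX true b r R ∩ HX false b r R) ≤ 2 * 1024 / c0 ^ 4 * (r / R) := by
          refine h3.trans ?_
          have := add_le_add (hY true) (hY false)
          refine this.trans (le_of_eq ?_)
          ring
      _ ≤ _ := mul_le_mul_of_nonneg_right (le_max_right _ _) (by positivity)

end Vale.Agent.P167.H192.TA
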