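import Vale.Agent.P167.H632.Path

/-!
# P167, block TWO-ARM, part 1: the half annulus in the scaled lattice, exclusion

`dq b r R`: squares of the half annulus (outer half box minus inner half box), `sr b r R`: its
sites, `Zs b r R`: its points in the scaled lattice.
`excl`: a crossing of one colour excludes a path of the other colour from the left ray to the right
ray. `exclH`: interlaced points of the boundary of the half plane.
-/

namespace Vale.Agent.P167.H192.TA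

open Vale.Agent.P145.FB Vale.Agent.P153 Vale.Agent.P153.Topo Vale.Agent.P167 Vale.Agent.P167.H871
  Vale.Agent.P167.H632
open Relation

/-- Squares of the half annulus. -/
def dq (b : Pt) (r R : ℤ) : Set Pt :=
  {v | b.1 - R ≤ v.1 ∧ v.1 < b.1 + R ∧ b.2 ≤ v.2 ∧ v.2 < b.2 + R ∧
    (v.1 < b.1 - r ∨ b.1 + r ≤ v.1 ∨ b.2 + r ≤ v.2)}

/-- Sites of the half annulus. -/
def sr (b : Pt) (r R : ℤ) : Set Pt :=
  {v | b.1 - R ≤ v.1 ∧ v.1 ≤ b.1 + R ∧ b.2 ≤ v.2 ∧ v.2 ≤ b.2 + R ∧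
    (v.1 ≤ b.1 - r ∨ b.1 + r ≤ v.1 ∨ b.2 + r ≤ v.2)}

/-- Points of the half annulus in the scaled lattice. -/
def Zs (b : Pt) (r R : ℤ) : Set Pt :=
  {z | 2 * (b.1 - R) ≤ z.1 ∧ z.1 ≤ 2 * (b.1 + R) ∧ 2 * b.2 ≤ z.2 ∧ z.2 ≤ 2 * (b.2 + R) ∧
    (z.1 ≤ 2 * (b.1 - r) ∨ 2 * (b.1 + r) ≤ z.1 ∨ 2 * (b.2 + r) ≤ z.2)}

theorem sr_eq (b : Pt) {r R : ℤ} : sr b r R = hp b ∩ an b r R := by
  ext v
  simp only [sr, hp, an, Set.mem_inter_iff, Set.mem_ofPred_eq, le_nm, nm_le, Prod.fst_sub,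
    Prod.snd_sub]
  omega

/-- Paths of a set of squares. -/
abbrev Pw (F : Set Pt) : Pt → Pt → Prop := ReflTransGen (PStep F)

theorem Pw.symm {F : Set Pt} {u v : Pt} (h : Pw F u v) : Pw F v u := by
  induction h with
  | refl => exact ReflTransGen.refl
  | tail _ h ih => exact (ReflTransGen.single h.symm).trans ih

theorem Pw.mono {F G : Set Pt} (hFG : F ⊆ G) {u v : Pt} (h : Pw F u v) : Pw G u v := by
  induction h with
  | refl => exact ReflTransGen.refl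
  | tail _ h ih => exact ih.tail ⟨h.1, h.2.1, hFG h.2.2⟩

theorem Pw.parity {F : Set Pt} {u v : Pt} (h : Pw F u v) : (u.1 + u.2) % 2 = (v.1 + v.2) % 2 := by
  induction h with
  | refl => rfl
  | tail _ h ih =>
    obtain ⟨h1, h2, -⟩ := h
    omega

theorem step_sr {F : Set Pt} {b : Pt} {r R : ℤ} {u v : Pt} (h : PStep (F ∩ dq b r R) u v) :
    u ∈ sr b r R ∧ v ∈ sr b r R := by
  obtain ⟨h1, h2, -, h3⟩ := h
  simp only [dq, sr, Set.mem_ofPred_eq] at *
  omega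

theorem Pw.mem_sr {F : Set Pt} {b : Pt} {r R : ℤ} {u v : Pt} (h : Pw (F ∩ dq b r R) u v)
    (hu : u ∈ sr b r R) : v ∈ sr b r R := by
  rcases ReflTransGen.cases_tail h with rfl | ⟨w, -, hw⟩
  · exact hu
  · exact (step_sr hw).2

theorem Pw.pconn {F : Set Pt} {b : Pt} {r R : ℤ} {u v : Pt} (h : Pw (F ∩ dq b r R) u v)
    (hu : u ∈ sr b r R) : PConn F (sr b r R) u v := by
  induction h with
  | refl => exact PConn.refl hu
  | tail _ h ih => exact ih.tail ⟨h.1, h.2.1, h.2.2.1⟩ (step_sr h).2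

theorem rect_sub_Zs {b : Pt} {r R m n : ℤ} (h : (m, n) ∈ dq b r R) :
    Rect (2 * m) (2 * (m + 1)) (2 * n) (2 * (n + 1)) ⊆ Zs b r R := by
  intro z hz
  rw [mem_rect] at hz
  simp only [dq, Zs, Set.mem_ofPred_eq] at *
  omega

theorem dbl_mem {b : Pt} {r R : ℤ} {u : Pt} : ((2 * u.1, 2 * u.2) : Pt) ∈ Zs b r R ↔ u ∈ sr b r R := by
  simp only [sr, Zs, Set.mem_ofPred_eq]
  omega

theorem conn_step {F : Set Pt} {e : ℤ} {u v : Pt} (h : PStep F u v) (hu : (u.1 + u.2) % 2 = e)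
    {Z : Set Pt}
    (hZ : Rect (2 * min u.1 v.1) (2 * (min u.1 v.1 + 1)) (2 * min u.2 v.2)
      (2 * (min u.2 v.2 + 1)) ⊆ Z) :
    Conn (Sc e F ∩ Z) (2 * u.1, 2 * u.2) (2 * v.1, 2 * v.2) := by
  obtain ⟨h1, h2, h3⟩ := h
  have k1 := conn_corner (e := e) (a := min u.1 v.1) (b := min u.1 v.1 + 1) (c := min u.2 v.2)
    (d := min u.2 v.2 + 1) (w := u) h3 (by omega) (by omega) (by omega) (by omega) (by omega)
  have k2 := conn_corner (e := e) (a := min u.1 v.1) (b := min u.1 v.1 + 1) (c := min u.2 v.2)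
    (d := min u.2 v.2 + 1) (w := v) h3 (by omega) (by omega) (by omega) (by omega) (by omega)
  exact (k1.trans k2.symm).mono (Set.inter_subset_inter_right _ hZ)

/-- Lift of a path with squares in the half annulus. -/
theorem Pw.lift {F : Set Pt} {b : Pt} {r R e : ℤ} {u v : Pt} (h : Pw (F ∩ dq b r R) u v)
    (hu : u ∈ sr b r R) (he : (u.1 + u.2) % 2 = e) :
    Conn (Sc e F ∩ Zs b r R) (2 * u.1, 2 * u.2) (2 * v.1, 2 * v.2) := by
  induction h with
  | refl =>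
    refine Conn.refl ⟨Or.inr ⟨not_ctr_left (a := u.1) rfl, ?_⟩, dbl_mem.2 hu⟩
    simp only [st]; omega
  | @tail x y hx hxy ih =>
    have hp := Pw.parity hx
    refine ih.trans (conn_step (F := F) ⟨hxy.1, hxy.2.1, hxy.2.2.1⟩ (by omega)
      (rect_sub_Zs hxy.2.2.2))

theorem ctr_dq {b z : Pt} {r R : ℤ} (hz : z ∈ Zs b r R) (hc : Ctr z) :
    (z.1 / 2, z.2 / 2) ∈ dq b r R := by
  obtain ⟨h1, h2⟩ := hc
  simp only [dq, Zs, Set.mem_ofPred_eq] at *
  omega

theorem nr_sr {e : ℤ} {b z w : Pt} {r R : ℤ} (hz : z ∈ Zs b r R) (h : Nr e z w) :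
    w ∈ sr b r R := by
  rcases h with ⟨h, rfl⟩ | ⟨⟨h1, h2⟩, h3, h4, -⟩
  · simp only [sr, Zs, st, Set.mem_ofPred_eq] at *
    omega
  · simp only [sr, Zs, Set.mem_ofPred_eq] at *
    omega

/-- All the sites at a point are joined. -/
theorem nr_join {F : Set Pt} {e : ℤ} {b z w w' : Pt} {r R : ℤ} (hz : z ∈ Sc e F)
    (hz' : z ∈ Zs b r R) (h : Nr e z w) (h' : Nr e z w') : Pw (F ∩ dq b r R) w w' := by
  by_cases hww : w = w'
  · subst hww; exact ReflTransGen.refl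
  rcases h with ⟨h, h1⟩ | ⟨h, h1, h2, h3⟩
  · rcases h' with ⟨-, h1'⟩ | ⟨h', -⟩
    · exact absurd (h1.trans h1'.symm) hww
    · exact absurd h' h
  · rcases h' with ⟨h', -⟩ | ⟨-, h1', h2', h3'⟩
    · exact absurd h h'
    · have hF : (z.1 / 2, z.2 / 2) ∈ F ∩ dq b r R := by
        refine ⟨?_, ctr_dq hz' h⟩
        rcases hz with hz | hz
        · exact hz.2
        · exact absurd h hz.1
      exact ReflTransGen.single (step_of_corners hF h1 h2 h1' h2' h3 h3' hww)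

/-- Projection of a path of the scaled lattice. -/
theorem nr_proj {F : Set Pt} {e : ℤ} {b z z' : Pt} {r R : ℤ} (h : Conn (Sc e F ∩ Zs b r R) z z')
    {w w' : Pt} (hw : Nr e z w) (hw' : Nr e z' w') : Pw (F ∩ dq b r R) w w' := by
  revert w'
  refine Conn.ind (S := Sc e F ∩ Zs b r R)
    (fun z' => ∀ {w' : Pt}, Nr e z' w' → Pw (F ∩ dq b r R) w w') ?_ ?_ h
  · intro w' hw'
    exact nr_join h.left_mem.1 h.left_mem.2 hw hw'
  · intro u v hu huv hv ih w' hw'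
    obtain ⟨x, hx1, hx2⟩ := nr_adj hu.right_mem.1 hv.1 huv
    exact (ih hx1).trans (nr_join hv.1 hv.2 hx2 hw')

theorem nr_dbl (e : ℤ) (u : Pt) : Nr e (2 * u.1, 2 * u.2) u := by
  refine Or.inl ⟨fun h => by have := h.1; dsimp only at this; omega, ?_⟩
  refine Prod.ext ?_ ?_ <;> simp only [st] <;> omega

theorem mem_Sc_compl {F : Set Pt} {e : ℤ} (he : e = 0 ∨ e = 1) {z : Pt} :
    z ∈ Sc (1 - e) Fᶜ ↔ z ∉ Sc e F := by
  rw [← Sc_compl' F he]; rfl

/-- **Exclusion in the half annulus.** -/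
theorem excl {F : Set Pt} {b : Pt} {r R e : ℤ} (he : e = 0 ∨ e = 1) (hr : 1 ≤ r) (hrR : r ≤ R)
    {y y' p q : Pt} (hy : y ∈ sr b r R) (hy0 : nm (y - b) ≤ r) (hy1 : R ≤ nm (y' - b))
    (hye : (y.1 + y.2) % 2 = e) (h : Pw (F ∩ dq b r R) y y')
    (hp : p ∈ sr b r R) (hp1 : p.1 ≤ b.1 - r) (hp2 : p.2 = b.2) (hpe : (p.1 + p.2) % 2 = 1 - e)
    (hq1 : b.1 + r ≤ q.1) (hq2 : q.2 = b.2)
    (h' : Pw (Fᶜ ∩ dq b r R) p q) : False := by
  have hA := h'.lift hp hpe
  have hB := h.lift hy hye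
  have hys' := h.mem_sr hy
  have hqs := h'.mem_sr hp
  rw [nm_le] at hy0
  rw [le_nm] at hy1
  simp only [Prod.fst_sub, Prod.snd_sub] at hy0 hy1
  obtain ⟨a, ha⟩ : ∃ a : ℤ, a = 2 * (b.1 - R) - 2 := ⟨_, rfl⟩
  obtain ⟨c, hc⟩ : ∃ c : ℤ, c = 2 * (b.1 + R) + 2 := ⟨_, rfl⟩
  obtain ⟨A', hA'⟩ : ∃ A' : Set Pt, A' = (Sc (1 - e) Fᶜ ∩ Zs b r R) ∪
      {z | z.2 = 2 * b.2 - 1 ∧ a ≤ z.1 ∧ z.1 ≤ c ∧ (z.1 ≤ 2 * (b.1 - r) ∨ 2 * (b.1 + r) ≤ z.1)} :=
    ⟨_, rfl⟩
  obtain ⟨B', hB'⟩ : ∃ B' : Set Pt, B' = (Sc e F ∩ Zs b r R) ∪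
      ({z | 2 * (b.1 - r) < z.1 ∧ z.1 < 2 * (b.1 + r) ∧ 2 * b.2 - 2 ≤ z.2 ∧ z.2 < 2 * (b.2 + r)} ∪
      {z | (z.1 = 2 * (b.1 - R) - 1 ∨ z.1 = 2 * (b.1 + R) + 1) ∧ 2 * b.2 ≤ z.2 ∧
        z.2 ≤ 2 * (b.2 + R)}) := ⟨_, rfl⟩
  simp only [sr, Set.mem_ofPred_eq] at hy hys' hp hqs
  -- the left-right path
  have c1 : Conn A' (a, 2 * b.2 - 1) (2 * p.1, 2 * b.2 - 1) := by
    refine conn_row fun i hi hi' => ?_
    rw [hA']
    right
    simp only [Set.mem_ofPred_eq, true_and]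
    omega
  have c2 : Conn A' (2 * q.1, 2 * b.2 - 1) (c, 2 * b.2 - 1) := by
    refine conn_row fun i hi hi' => ?_
    rw [hA']
    right
    simp only [Set.mem_ofPred_eq, true_and]
    omega
  have hA1 : Conn A' (2 * p.1, 2 * p.2) (2 * q.1, 2 * q.2) := hA.mono (by
    rw [hA']; exact Set.subset_union_left)
  have cA : Conn A' (a, 2 * b.2 - 1) (c, 2 * b.2 - 1) := by
    refine (c1.tail ?_ hA1.left_mem).trans (hA1.trans ?_)
    · rw [adj_iff]; dsimp only; omega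
    · exact ((Conn.refl hA1.right_mem).tail (by rw [adj_iff]; dsimp only; omega) c2.left_mem).trans c2
  -- the bottom-top path
  have hB1 : Conn B' (2 * y.1, 2 * y.2) (2 * y'.1, 2 * y'.2) := hB.mono (by
    rw [hB']; exact Set.subset_union_left)
  have hin : ∀ z : Pt, 2 * (b.1 - r) < z.1 → z.1 < 2 * (b.1 + r) → 2 * b.2 - 2 ≤ z.2 →
      z.2 < 2 * (b.2 + r) → z ∈ B' ∧ Conn B' (2 * b.1, 2 * b.2 - 2) z := by
    intro z h1 h2 h3 h4
    have key : ∀ w : Pt, 2 * (b.1 - r) < w.1 → w.1 < 2 * (b.1 + r) → 2 * b.2 - 2 ≤ w.2 →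
      w.2 < 2 * (b.2 + r) → w ∈ B' := by
      intro w k1 k2 k3 k4
      rw [hB']
      right; left
      exact ⟨k1, k2, k3, k4⟩
    refine ⟨key z h1 h2 h3 h4, ?_⟩
    have e1 : Conn B' (2 * b.1, 2 * b.2 - 2) (z.1, 2 * b.2 - 2) :=
      conn_row fun i hi hi' => key _ (by dsimp only; omega) (by dsimp only; omega)
        (by dsimp only; omega) (by dsimp only; omega)
    have e2 : Conn B' (z.1, 2 * b.2 - 2) (z.1, z.2) :=
      conn_col fun i hi hi' => key _ (by dsimp only; omega) (by dsimp only; omega)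
        (by dsimp only; omega) (by dsimp only; omega)
    exact e1.trans e2
  have cB1 : Conn B' (2 * b.1, 2 * b.2 - 2) (2 * y.1, 2 * y.2) := by
    by_cases k1 : y.1 = b.1 - r
    · by_cases k2 : y.2 = b.2 + r
      · obtain ⟨m, hm⟩ := hin (2 * y.1 + 1, 2 * y.2 - 1) (by dsimp only; omega) (by dsimp only; omega)
          (by dsimp only; omega) (by dsimp only; omega)
        exact hm.tail (by rw [adj_iff]; dsimp only; omega) hB1.left_mem
      · obtain ⟨m, hm⟩ := hin (2 * y.1 + 1, 2 * y.2) (by dsimp only; omega) (by dsimp only; omega)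
          (by dsimp only; omega) (by dsimp only; omega)
        exact hm.tail (by rw [adj_iff]; dsimp only; omega) hB1.left_mem
    · by_cases k2 : y.1 = b.1 + r
      · by_cases k3 : y.2 = b.2 + r
        · obtain ⟨m, hm⟩ := hin (2 * y.1 - 1, 2 * y.2 - 1) (by dsimp only; omega)
            (by dsimp only; omega) (by dsimp only; omega) (by dsimp only; omega)
          have hz : ((2 * y.1 - 1, 2 * y.2) : Pt) ∈ B' := by
            rw [hB']
            left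
            refine ⟨Or.inr ⟨not_ctr_right (a := y.2) rfl, ?_⟩, ?_⟩
            · simp only [st]; omega
            · simp only [Zs, Set.mem_ofPred_eq]; omega
          exact (hm.tail (by rw [adj_iff]; dsimp only; omega) hz).tail
            (by rw [adj_iff]; dsimp only; omega) hB1.left_mem
        · obtain ⟨m, hm⟩ := hin (2 * y.1 - 1, 2 * y.2) (by dsimp only; omega) (by dsimp only; omega)
            (by dsimp only; omega) (by dsimp only; omega)
          exact hm.tail (by rw [adj_iff]; dsimp only; omega) hB1.left_mem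
      · obtain ⟨m, hm⟩ := hin (2 * y.1, 2 * y.2 - 1) (by dsimp only; omega) (by dsimp only; omega)
          (by dsimp only; omega) (by dsimp only; omega)
        exact hm.tail (by rw [adj_iff]; dsimp only; omega) hB1.left_mem
  have cB2 : ∃ z : Pt, z.2 = 2 * (b.2 + R) ∧ Conn B' (2 * y'.1, 2 * y'.2) z := by
    by_cases k1 : y'.2 = b.2 + R
    · exact ⟨_, by dsimp only; omega, Conn.refl hB1.right_mem⟩
    by_cases k2 : y'.1 = b.1 - R
    · refine ⟨(2 * y'.1 - 1, 2 * (b.2 + R)), rfl, ?_⟩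
      have e1 : Conn B' (2 * y'.1 - 1, 2 * y'.2) (2 * y'.1 - 1, 2 * (b.2 + R)) := by
        refine conn_col fun i hi hi' => ?_
        rw [hB']
        right; right
        simp only [Set.mem_ofPred_eq]
        omega
      exact ((Conn.refl hB1.right_mem).tail (by rw [adj_iff]; dsimp only; omega)
        e1.left_mem).trans e1
    · refine ⟨(2 * y'.1 + 1, 2 * (b.2 + R)), rfl, ?_⟩
      have e1 : Conn B' (2 * y'.1 + 1, 2 * y'.2) (2 * y'.1 + 1, 2 * (b.2 + R)) := by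
        refine conn_col fun i hi hi' => ?_
        rw [hB']
        right; right
        simp only [Set.mem_ofPred_eq]
        omega
      exact ((Conn.refl hB1.right_mem).tail (by rw [adj_iff]; dsimp only; omega)
        e1.left_mem).trans e1
  obtain ⟨z1, hz1, k1⟩ := cB2
  have cB := (cB1.trans hB1).trans k1
  obtain ⟨z, hzA, hzB⟩ := cross (A := A') (B := B') (a := a) (b := c)
    (c := 2 * b.2 - 2) (d := 2 * (b.2 + R)) (by
      intro z hz
      rw [hA'] at hz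
      rcases hz with ⟨-, hz⟩ | hz
      · simp only [Zs, Set.mem_ofPred_eq] at hz; omega
      · simp only [Set.mem_ofPred_eq] at hz; omega) (by
      intro z hz
      rw [hB'] at hz
      rcases hz with ⟨-, hz⟩ | hz | hz
      · simp only [Zs, Set.mem_ofPred_eq] at hz; omega
      · simp only [Set.mem_ofPred_eq] at hz; omega
      · simp only [Set.mem_ofPred_eq] at hz; omega) cA rfl rfl cB rfl hz1
  rw [hA'] at hzA
  rw [hB'] at hzB
  rcases hzA with ⟨hzA, hzA'⟩ | hzA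
  · rw [mem_Sc_compl he] at hzA
    rcases hzB with ⟨hzB, -⟩ | hzB | hzB
    · exact hzA hzB
    · simp only [Zs, Set.mem_ofPred_eq] at hzA' hzB; omega
    · simp only [Zs, Set.mem_ofPred_eq] at hzA' hzB; omega
  · rcases hzB with ⟨-, hzB⟩ | hzB | hzB <;>
      simp only [Zs, Set.mem_ofPred_eq] at hzA hzB <;> omega

/-! ### The half plane -/

/-- Squares of a box. -/
def bq (b2 a c d : ℤ) : Set Pt := {v | a ≤ v.1 ∧ v.1 < c ∧ b2 ≤ v.2 ∧ v.2 < d}

theorem liftH {F : Set Pt} {b2 a c d e : ℤ} {u v : Pt} (h : Pw (F ∩ bq b2 a c d) u v)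
    (hu : a ≤ u.1 ∧ u.1 ≤ c ∧ b2 ≤ u.2 ∧ u.2 ≤ d) (he : (u.1 + u.2) % 2 = e) :
    Conn (Sc e F ∩ Rect (2 * a) (2 * c) (2 * b2) (2 * d)) (2 * u.1, 2 * u.2)
      (2 * v.1, 2 * v.2) := by
  induction h with
  | refl =>
    refine Conn.refl ⟨Or.inr ⟨not_ctr_left (a := u.1) rfl, ?_⟩, ?_⟩
    · simp only [st]; omega
    · rw [mem_rect]; dsimp only; omega
  | @tail x y hx hxy ih =>
    have hp := Pw.parity hx
    refine ih.trans (conn_step (F := F) ⟨hxy.1, hxy.2.1, hxy.2.2.1⟩ (by omega) ?_)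
    intro z hz
    have h4 := hxy.2.2.2
    simp only [bq, Set.mem_ofPred_eq] at h4
    rw [mem_rect] at hz ⊢
    omega

/-- **Exclusion in the half plane**: interlaced boundary points. -/
theorem exclH {F : Set Pt} {b2 a c d e x1 x2 x3 x4 : ℤ} (he : e = 0 ∨ e = 1) (h12 : x1 < x2)
    (h23 : x2 < x3) (h34 : x3 < x4) (ha : a ≤ x1) (hc : x4 ≤ c) (hd : b2 ≤ d)
    (h1e : (x1 + b2) % 2 = e) (h2e : (x2 + b2) % 2 = 1 - e)
    (h : Pw (F ∩ bq b2 a c d) (x1, b2) (x3, b2))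
    (h' : Pw (Fᶜ ∩ bq b2 a c d) (x2, b2) (x4, b2)) : False := by
  have hA := liftH h (by dsimp only; omega) h1e
  have hB := liftH h' (by dsimp only; omega) h2e
  dsimp only at hA hB
  obtain ⟨A', hA'⟩ : ∃ A' : Set Pt, A' = (Sc e F ∩ Rect (2 * a) (2 * c) (2 * b2) (2 * d)) ∪
      ({z | z.2 = 2 * b2 - 1 ∧ 2 * a - 1 ≤ z.1 ∧ z.1 ≤ 2 * x1} ∪
      ({z | z.1 = 2 * x3 ∧ 2 * b2 - 3 ≤ z.2 ∧ z.2 ≤ 2 * b2 - 1} ∪
      {z | z.2 = 2 * b2 - 3 ∧ 2 * x3 ≤ z.1 ∧ z.1 ≤ 2 * c + 2})) := ⟨_, rfl⟩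
  obtain ⟨B', hB'⟩ : ∃ B' : Set Pt, B' =
      (Sc (1 - e) Fᶜ ∩ Rect (2 * a) (2 * c) (2 * b2) (2 * d)) ∪
      ({z | z.1 = 2 * x2 ∧ 2 * b2 - 4 ≤ z.2 ∧ z.2 ≤ 2 * b2 - 1} ∪
      ({z | z.2 = 2 * b2 - 1 ∧ 2 * x4 ≤ z.1 ∧ z.1 ≤ 2 * c + 1} ∪
      {z | z.1 = 2 * c + 1 ∧ 2 * b2 - 1 ≤ z.2 ∧ z.2 ≤ 2 * d})) := ⟨_, rfl⟩
  have hA1 : Conn A' (2 * x1, 2 * b2) (2 * x3, 2 * b2) := hA.mono (by
    rw [hA']; exact Set.subset_union_left)
  have hB1 : Conn B' (2 * x2, 2 * b2) (2 * x4, 2 * b2) := hB.mono (by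
    rw [hB']; exact Set.subset_union_left)
  have a1 : Conn A' (2 * a - 1, 2 * b2 - 1) (2 * x1, 2 * b2 - 1) := by
    refine conn_row fun i hi hi' => ?_
    rw [hA']
    right; left
    simp only [Set.mem_ofPred_eq, true_and]
    omega
  have a2 : Conn A' (2 * x3, 2 * b2 - 1) (2 * x3, 2 * b2 - 3) := by
    refine conn_col fun i hi hi' => ?_
    rw [hA']
    right; right; left
    simp only [Set.mem_ofPred_eq, true_and]
    omega
  have a3 : Conn A' (2 * x3, 2 * b2 - 3) (2 * c + 2, 2 * b2 - 3) := by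
    refine conn_row fun i hi hi' => ?_
    rw [hA']
    right; right; right
    simp only [Set.mem_ofPred_eq, true_and]
    omega
  have b1 : Conn B' (2 * x2, 2 * b2 - 4) (2 * x2, 2 * b2 - 1) := by
    refine conn_col fun i hi hi' => ?_
    rw [hB']
    right; left
    simp only [Set.mem_ofPred_eq, true_and]
    omega
  have b2' : Conn B' (2 * x4, 2 * b2 - 1) (2 * c + 1, 2 * b2 - 1) := by
    refine conn_row fun i hi hi' => ?_
    rw [hB']
    right; right; left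
    simp only [Set.mem_ofPred_eq, true_and]
    omega
  have b3 : Conn B' (2 * c + 1, 2 * b2 - 1) (2 * c + 1, 2 * d) := by
    refine conn_col fun i hi hi' => ?_
    rw [hB']
    right; right; right
    simp only [Set.mem_ofPred_eq, true_and]
    omega
  have cA : Conn A' (2 * a - 1, 2 * b2 - 1) (2 * c + 2, 2 * b2 - 3) := by
    refine (a1.tail ?_ hA1.left_mem).trans ((hA1.tail ?_ a2.left_mem).trans (a2.trans a3))
    · rw [adj_iff]; dsimp only; omega
    · rw [adj_iff]; dsimp only; omega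
  have cB : Conn B' (2 * x2, 2 * b2 - 4) (2 * c + 1, 2 * d) := by
    refine (b1.tail ?_ hB1.left_mem).trans ((hB1.tail ?_ b2'.left_mem).trans (b2'.trans b3))
    · rw [adj_iff]; dsimp only; omega
    · rw [adj_iff]; dsimp only; omega
  obtain ⟨z, hzA, hzB⟩ := cross (A := A') (B := B') (a := 2 * a - 1) (b := 2 * c + 2)
    (c := 2 * b2 - 4) (d := 2 * d) (by
      intro z hz
      rw [hA'] at hz
      rcases hz with ⟨-, hz⟩ | hz | hz | hz
      · rw [mem_rect] at hz; omega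
      · simp only [Set.mem_ofPred_eq] at hz; omega
      · simp only [Set.mem_ofPred_eq] at hz; omega
      · simp only [Set.mem_ofPred_eq] at hz; omega) (by
      intro z hz
      rw [hB'] at hz
      rcases hz with ⟨-, hz⟩ | hz | hz | hz
      · rw [mem_rect] at hz; omega
      · simp only [Set.mem_ofPred_eq] at hz; omega
      · simp only [Set.mem_ofPred_eq] at hz; omega
      · simp only [Set.mem_ofPred_eq] at hz; omega) cA rfl rfl cB rfl rfl
  rw [hA'] at hzA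
  rw [hB'] at hzB
  rcases hzA with ⟨hzA, hzA'⟩ | hzA | hzA | hzA
  · rw [mem_rect] at hzA'
    rcases hzB with ⟨hzB, -⟩ | hzB | hzB | hzB
    · rw [mem_Sc_compl he] at hzB; exact hzB hzA
    · simp only [Set.mem_ofPred_eq] at hzB; omega
    · simp only [Set.mem_ofPred_eq] at hzB; omega
    · simp only [Set.mem_ofPred_eq] at hzB; omega
  all_goals
    rcases hzB with ⟨-, hzB⟩ | hzB | hzB | hzB
    · rw [mem_rect] at hzB
      simp only [Set.mem_ofPred_eq] at hzA; omega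
    all_goals simp only [Set.mem_ofPred_eq] at hzA hzB; omega

end Vale.Agent.P167.H192.TA
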