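import Vale.Agent.P167.H192.TA.Str
import Vale.Agent.P167.H632.Esc2

/-!
# P167, blocks TWO-ARM / N-RED: one and two crossings of the half annulus by the interface

`twoS_le`: `μ {TwoS b r R} ≤ C * (r / R)`.
`thrS_le`: `μ {ThrS b r R} ≤ C * (r / R) ^ (1 + α)`.
-/

namespace Vale.Agent.P167.H192.TA

open MeasureTheory Vale.Agent.P145.FB Vale.Agent.P153 Vale.Agent.P153.Topo Vale.Agent.P167
  Vale.Agent.P167.H871 Vale.Agent.P167.H632 Vale.Agent.P167.H558 Vale.Agent.P167.H365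
open Relation

/-- A crossing of colour `c` off the cluster of colour `c` of the left ray. -/
def F3 (c : Bool) (b : Pt) (r R : ℤ) : Set Cfg :=
  {ω | ∃ y0 y1, y0 ∉ Kl c b r R (ray false c b r R) ω ∧ y0 ∈ sr b r R ∧
    (y0.1 + y0.2) % 2 = pr c ∧ nm (y0 - b) ≤ r ∧ Pw (cs c ω ∩ dq b r R) y0 y1 ∧ R ≤ nm (y1 - b)}

theorem dep_F3 {c : Bool} {b : Pt} {r R : ℤ} : Dep (dF b r R) (F3 c b r R) := by
  rintro o o' ho ⟨y0, y1, g1, g2, g3, g4, g5, g6⟩
  refine ⟨y0, y1, fun h => g1 ?_, g2, g3, g4, pw_congr ho g5, g6⟩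
  obtain ⟨p, hp, hpy⟩ := mem_Kl.1 h
  exact mem_Kl.2 ⟨p, hp, pw_congr (fun v hv => (ho v hv).symm) hpy⟩

theorem F3_of_thrS {c : Bool} {b : Pt} {r R : ℤ} (hr : 1 ≤ r) (hrR : r ≤ R) {ω : Cfg}
    (h : ThrS b r R ω) : ω ∈ F3 c b r R := by
  obtain ⟨y0, y1, g1, g2, g3, g4, g5, g6⟩ := sep_cro hr hrR h c
  refine ⟨y0, y1, fun h => ?_, g1, g2, g3, g4, g5⟩
  obtain ⟨p, ⟨h1, h2, h3, -⟩, h4⟩ := mem_Kl.1 h
  refine g6 p h1 h2 ?_ h4
  simp only [sgn, Bool.false_eq_true, if_false] at h3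
  omega

/-- **The third arm is fresh.** -/
theorem three_le (c : Bool) {b : Pt} {r R : ℤ} (hrR : r ≤ R) :
    μ.real ({ω | Y1 c b r R ω} ∩ F3 c b r R) ≤ μ.real (HX c b r R) * μ.real {ω | Y1 c b r R ω} := by
  have hp := fair_mu.prob
  have h5 := stop_le fair (R := Rl c b r R (ray false c b r R)) stop_Rl (Y := Y1 c b r R)
    (past_Y1 c b r R) (B := F3 c b r R) dep_F3.meas (q := μ (HX c b r R)) (by
      intro ω _
      rw [← mu_eq_Pm]
      refine measure_mono ?_
      rintro ω' ⟨y0, y1, g1, g2, g3, g4, g5, g6⟩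
      rw [past_Kl.glue ω ω'] at g1
      obtain ⟨-, k2⟩ := fresh_path (fun p hp => hp.2.2.2) g1 g3 g5
      exact hx_of_path hrR g2 g3 k2 g4 g6)
  rw [← mu_eq_Pm] at h5
  unfold Measure.real
  rw [← ENNReal.toReal_mul]
  exact ENNReal.toReal_mono (ENNReal.mul_ne_top (measure_ne_top _ _) (measure_ne_top _ _)) h5

/-- The bound for one of the events `Y1`. -/
theorem Y1_le : ∃ C : ℝ, 0 < C ∧ ∀ (c : Bool) (b : Pt) (r R : ℤ), 1 ≤ r → r ≤ R →
    μ.real {ω | Y1 c b r R ω} ≤ C * ((r : ℝ) / R) := by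
  have hp := fair_mu.prob
  obtain ⟨c0, hc0, hc⟩ := hc_ge
  refine ⟨max 1024 (1024 / c0 ^ 4), by positivity, fun c b r R hr hrR => ?_⟩
  have hr' : (1 : ℝ) ≤ r := by exact_mod_cast hr
  have hR' : (r : ℝ) ≤ R := by exact_mod_cast hrR
  have hRp : (0 : ℝ) < R := by linarith
  by_cases hbig : R < 512 * r
  · have h1 : (R : ℝ) < 512 * r := by exact_mod_cast hbig
    have h2 : (1 : ℝ) ≤ 1024 * (r / R) := by
      rw [← mul_div_assoc, le_div_iff₀ hRp]
      linarith
    calc μ.real {ω | Y1 c b r R ω} ≤ 1 := measureReal_le_one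
      _ ≤ 1024 * ((r : ℝ) / R) := h2
      _ ≤ _ := by
        refine mul_le_mul_of_nonneg_right (le_max_left _ _) (by positivity)
  · push Not at hbig
    have hm : 8 * r + 1 < R / 8 := by omega
    obtain ⟨n, hn⟩ : ∃ n : ℕ, (n : ℤ) = R / (256 * r) - 1 := by
      have : 1 ≤ R / (256 * r) := by
        rw [Int.le_ediv_iff_mul_le (by omega)]
        omega
      exact ⟨(R / (256 * r) - 1).toNat, by omega⟩
    have hn1 : 32 * r * n ≤ R / 8 := by
      have h1 : R / (256 * r) * (256 * r) ≤ R := Int.ediv_mul_le R (by omega)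
      rw [Int.le_ediv_iff_mul_le (by norm_num), hn]
      nlinarith
    have hn2 : (R : ℝ) ≤ 1024 * r * n := by
      have h1 : R < (R / (256 * r) + 1) * (256 * r) := Int.lt_ediv_add_one_mul_self R (by omega)
      have h2 : 2 ≤ R / (256 * r) := by
        rw [Int.le_ediv_iff_mul_le (by omega)]
        omega
      have h3 : R ≤ 1024 * r * n := by
        rw [hn]
        nlinarith
      exact_mod_cast h3
    have hnp : (0 : ℝ) < n := by
      by_contra hcon
      push Not at hcon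
      have : (1024 * r * n : ℝ) ≤ 0 := mul_nonpos_of_nonneg_of_nonpos (by positivity) hcon
      linarith
    have hE : μ.real (E3 c b r R (8 * r) (R / 8)) ≤ 1024 * (r / R) := by
      have h1 := E3_le (c := c) (b := b) (R := R) (m2 := R / 8) hr (by omega) n hn1
      have h2 : μ.real (E3 c b r R (8 * r) (R / 8)) ≤ 1 / n := by
        rw [le_div_iff₀ hnp]
        linarith
      refine h2.trans ?_
      rw [← mul_div_assoc, div_le_div_iff₀ hnp hRp]
      linarith
    have h1 := (stages hc0 hc (c := c) (b := b) hr hm).trans hE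
    have h2 : μ.real {ω | Y1 c b r R ω} ≤ 1024 * (r / R) / c0 ^ 4 := by
      rw [le_div_iff₀ (by positivity)]
      linarith
    calc μ.real {ω | Y1 c b r R ω} ≤ 1024 / c0 ^ 4 * (r / R) := by
          refine h2.trans (le_of_eq ?_)
          ring
      _ ≤ _ := mul_le_mul_of_nonneg_right (le_max_right _ _) (by positivity)

/-- **(I-2)** The half annulus is crossed by the interface. -/
theorem twoS_le : ∃ C : ℝ, 0 < C ∧ ∀ (b : Pt) (r R : ℤ), 1 ≤ r → r ≤ R →
    μ.real {ω | TwoS b r R ω} ≤ C * ((r : ℝ) / R) := by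
  have hp := fair_mu.prob
  obtain ⟨C, hC, h⟩ := two_arm
  refine ⟨C, hC, fun b r R hr hrR => ?_⟩
  refine le_trans (measureReal_mono ?_) (h b r R hr hrR)
  intro ω hω
  exact hx_of_twoS hrR hω

/-- **(I-3)** The half annulus is crossed twice by the interface. -/
theorem thrS_le : ∃ C α : ℝ, 0 < C ∧ 0 < α ∧ ∀ (b : Pt) (r R : ℤ), 1 ≤ r → r ≤ R →
    μ.real {ω | ThrS b r R ω} ≤ C * ((r : ℝ) / R) ^ (1 + α) := by
  have hp := fair_mu.prob
  obtain ⟨C1, α, hC1, hα, h1⟩ := hx_le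
  obtain ⟨C2, hC2, h2⟩ := Y1_le
  refine ⟨max (2 * (C1 * C2)) (2 ^ (1 + α)), α, by positivity, hα, fun b r R hr hrR => ?_⟩
  have hr' : (1 : ℝ) ≤ r := by exact_mod_cast hr
  have hR' : (r : ℝ) ≤ R := by exact_mod_cast hrR
  have hRp : (0 : ℝ) < R := by linarith
  have hq : 0 < (r : ℝ) / R := by positivity
  by_cases hbig : R ≤ r + 1
  · have h3 : (R : ℝ) ≤ r + 1 := by exact_mod_cast hbig
    have h4 : 1 ≤ 2 * ((r : ℝ) / R) := by
      rw [← mul_div_assoc, le_div_iff₀ hRp]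
      linarith
    calc μ.real {ω | ThrS b r R ω} ≤ 1 := measureReal_le_one
      _ ≤ (2 * ((r : ℝ) / R)) ^ (1 + α) := Real.one_le_rpow h4 (by linarith)
      _ = 2 ^ (1 + α) * ((r : ℝ) / R) ^ (1 + α) := Real.mul_rpow (by norm_num) hq.le
      _ ≤ _ := mul_le_mul_of_nonneg_right (le_max_right _ _) (by positivity)
  · have hX : ∀ c, μ.real (HX c b r R) ≤ C1 * ((r : ℝ) / R) ^ α := by
      intro c
      refine le_trans (measureReal_mono ?_) (h1 b r R hr hrR)
      cases c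
      · exact Set.subset_union_right
      · exact Set.subset_union_left
    have hT : ∀ c, μ.real ({ω | Y1 c b r R ω} ∩ F3 c b r R) ≤
        C1 * C2 * ((r : ℝ) / R) ^ (1 + α) := by
      intro c
      refine (three_le c hrR).trans ?_
      calc μ.real (HX c b r R) * μ.real {ω | Y1 c b r R ω}
          ≤ (C1 * ((r : ℝ) / R) ^ α) * (C2 * ((r : ℝ) / R)) :=
            mul_le_mul (hX c) (h2 c b r R hr hrR) measureReal_nonneg (by positivity)
        _ = C1 * C2 * ((r : ℝ) / R) ^ (1 + α) := by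
            rw [Real.rpow_add hq, Real.rpow_one]
            ring
    calc μ.real {ω | ThrS b r R ω}
        ≤ μ.real (({ω | Y1 true b r R ω} ∩ F3 true b r R) ∪
            ({ω | Y1 false b r R ω} ∩ F3 false b r R)) := by
          refine measureReal_mono ?_
          intro ω hω
          have ht : TwoS b r R ω := by
            obtain ⟨e, -, -, he, -⟩ := hω
            exact ⟨e, he⟩
          obtain ⟨k1, k2⟩ := hx_of_twoS hrR ht
          rcases two_sub hr (by omega) k1 k2 with h | h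
          · exact Or.inl ⟨h, F3_of_thrS hr hrR hω⟩
          · exact Or.inr ⟨h, F3_of_thrS hr hrR hω⟩
      _ ≤ _ := measureReal_union_le _ _
      _ ≤ C1 * C2 * ((r : ℝ) / R) ^ (1 + α) + C1 * C2 * ((r : ℝ) / R) ^ (1 + α) :=
          add_le_add (hT true) (hT false)
      _ = 2 * (C1 * C2) * ((r : ℝ) / R) ^ (1 + α) := by ring
      _ ≤ _ := mul_le_mul_of_nonneg_right (le_max_left _ _) (by positivity)

end Vale.Agent.P167.H192.TA
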