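import Vale.Agent.P167.H192.TA.Arc

/-!
# P167: if a colour does not cross the half annulus, the other colour joins the two rays
-/

namespace Vale.Agent.P167.H192.TA

open Vale.Agent.P145.FB Vale.Agent.P153 Vale.Agent.P153.Topo Vale.Agent.P167 Vale.Agent.P167.H871
  Vale.Agent.P167.H632
open Relation

/-- **Arcs around the inner half box.** -/
theorem arc_full {F : Set Pt} {b : Pt} {r R e : ℤ} (he : e = 0 ∨ e = 1) (hr : 1 ≤ r) (hrR : r ≤ R)
    (H : ∀ y y' : Pt, y ∈ sr b r R → (y.1 + y.2) % 2 = e → nm (y - b) ≤ r →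
      Pw (F ∩ dq b r R) y y' → nm (y' - b) < R) :
    ∃ x x', b.1 - R ≤ x ∧ x ≤ b.1 - r ∧ b.1 + r ≤ x' ∧ x' ≤ b.1 + R ∧ (x + b.2) % 2 = 1 - e ∧
      Pw (Fᶜ ∩ dq b r R) (x, b.2) (x', b.2) := by
  obtain ⟨B, hB⟩ : ∃ B : Set Pt, B = {z | 2 * (b.1 - r) < z.1 ∧ z.1 < 2 * (b.1 + r) ∧
    z.2 < 2 * (b.2 + r)} := ⟨_, rfl⟩
  obtain ⟨A, hA⟩ : ∃ A : Set Pt, A = Sc e F ∩ Zs b r R := ⟨_, rfl⟩
  obtain ⟨K, hK⟩ : ∃ K : Set Pt, K = comp (A ∪ B) B := ⟨_, rfl⟩
  have mB : ∀ z : Pt, z ∈ B ↔ 2 * (b.1 - r) < z.1 ∧ z.1 < 2 * (b.1 + r) ∧ z.2 < 2 * (b.2 + r) := by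
    intro z; rw [hB]; rfl
  have hBK : B ⊆ K := by rw [hK]; exact sub_comp Set.subset_union_right
  have hKAB : K ⊆ A ∪ B := by rw [hK]; exact comp_sub
  have hBc : ∀ x ∈ B, ∀ y ∈ B, Conn B x y := by
    rintro ⟨i, j⟩ hx ⟨k, l⟩ hy
    rw [mB] at hx hy
    refine (conn_row (j := j) (s := i) (t := k) ?_).trans (conn_col (i := k) (s := j) (t := l) ?_)
    · intro m hm hm'
      rw [mB]
      dsimp only at *
      omega
    · intro m hm hm'
      rw [mB]
      dsimp only at *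
      omega
  have hKc : ∀ x ∈ K, ∀ y ∈ K, Conn K x y := by
    rw [hK]; exact comp_conn hBc Set.subset_union_right
  have hcl : ∀ x ∈ K, ∀ y, Adj x y → y ∈ A ∪ B → y ∈ K := by
    intro x hx y hxy hy
    rw [hK] at hx ⊢
    exact comp_step hx hxy hy
  -- points of the cluster
  have hatt : ∀ z ∈ K, z ∈ B ∨ (z ∈ A ∧ ∃ y, y ∈ sr b r R ∧ (y.1 + y.2) % 2 = e ∧
      nm (y - b) ≤ r ∧ ∀ w, Nr e z w → Pw (F ∩ dq b r R) y w) := by
    intro z hz
    rw [hK] at hz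
    obtain ⟨x, hx, hxz⟩ := hz
    refine Conn.ind (S := A ∪ B) (fun z => z ∈ B ∨ (z ∈ A ∧ ∃ y, y ∈ sr b r R ∧
      (y.1 + y.2) % 2 = e ∧ nm (y - b) ≤ r ∧ ∀ w, Nr e z w → Pw (F ∩ dq b r R) y w))
      (Or.inl hx) ?_ hxz
    intro u v _ huv hv ih
    rcases hv with hv | hv
    swap
    · exact Or.inl hv
    right
    refine ⟨hv, ?_⟩
    rw [hA] at hv
    rcases ih with hu | ⟨hu, y, k1, k2, k3, k4⟩
    · rw [mB] at hu
      rw [adj_iff] at huv
      have hvz := hv.2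
      simp only [Zs, Set.mem_ofPred_eq] at hvz
      have hc : ¬ Ctr v := by
        rintro ⟨c1, c2⟩
        omega
      have hpar := parity_of_mem hv.1 hc
      refine ⟨st v, ?_, hpar, ?_, fun w hw => ?_⟩
      · simp only [sr, st, Set.mem_ofPred_eq]
        omega
      · rw [nm_le]
        simp only [st, Prod.fst_sub, Prod.snd_sub]
        omega
      · rcases hw with ⟨-, hw⟩ | ⟨hw, -⟩
        · rw [hw]
        · exact absurd hw hc
    · rw [hA] at hu
      refine ⟨y, k1, k2, k3, fun w hw => ?_⟩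
      obtain ⟨x', h3, h4⟩ := nr_adj hu.1 hv.1 huv
      exact (k4 x' h3).trans (nr_join hv.1 hv.2 h4 hw)
  have hsite : ∀ z ∈ K, z ∈ A → ∀ w, Nr e z w → nm (w - b) < R := by
    intro z hz hzA w hw
    rcases hatt z hz with h3 | ⟨-, y, k1, k2, k3, k4⟩
    · rw [mB] at h3
      rw [hA] at hzA
      have := hzA.2
      simp only [Zs, Set.mem_ofPred_eq] at this
      omega
    · exact H y w k1 k2 k3 (k4 w hw)
  -- neighbours of the cluster
  have cl1 : ∀ k w : Pt, k ∈ K → w ∉ K → Adj k w → 2 * b.2 ≤ w.2 →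
      w ∈ Sc (1 - e) Fᶜ ∩ Zs b r R := by
    intro k w hk hw hkw hw2
    have hwB : w ∉ B := fun h => hw (hBK h)
    rw [mB] at hwB
    have hwZ : w ∈ Zs b r R := by
      rcases hKAB hk with hkA | hkB
      · have hs := hsite k hk hkA
        rw [hA] at hkA
        have hkZ := hkA.2
        rw [adj_iff] at hkw
        by_cases hc : Ctr k
        · obtain ⟨c1, c2⟩ := hc
          simp only [Zs, Set.mem_ofPred_eq] at hkZ ⊢
          omega
        · have s2 := hs (st k) (Or.inl ⟨hc, rfl⟩)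
          have s2' : nm (st k - b) ≤ R - 1 := by omega
          rw [nm_le] at s2'
          simp only [st, Prod.fst_sub, Prod.snd_sub] at s2'
          simp only [Zs, Set.mem_ofPred_eq] at hkZ ⊢
          omega
      · rw [mB] at hkB
        rw [adj_iff] at hkw
        simp only [Zs, Set.mem_ofPred_eq]
        omega
    refine ⟨?_, hwZ⟩
    rw [mem_Sc_compl he]
    intro hwS
    exact hw (hcl k hk w hkw (Or.inl (by rw [hA]; exact ⟨hwS, hwZ⟩)))
  -- the complement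
  have hout : ∀ z : Pt, (z.2 ≤ 2 * b.2 - 1 ∧ (z.1 ≤ 2 * (b.1 - r) ∨ 2 * (b.1 + r) ≤ z.1)) ∨
      z.1 < 2 * (b.1 - R) ∨ 2 * (b.1 + R) < z.1 ∨ 2 * (b.2 + R) < z.2 → z ∈ Kᶜ := by
    intro z hz hzK
    rcases hKAB hzK with h3 | h3
    · rw [hA] at h3
      have := h3.2
      simp only [Zs, Set.mem_ofPred_eq] at this
      omega
    · rw [mB] at h3
      omega
  have hpath : Conn Kᶜ (2 * (b.1 - r), 2 * b.2 - 2) (2 * (b.1 + r), 2 * b.2 - 2) := by
    have p1 : Conn Kᶜ (2 * (b.1 - r), 2 * b.2 - 2) (2 * (b.1 - R) - 1, 2 * b.2 - 2) :=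
      conn_row fun i hi hi' => hout _ (by dsimp only; omega)
    have p2 : Conn Kᶜ (2 * (b.1 - R) - 1, 2 * b.2 - 2) (2 * (b.1 - R) - 1, 2 * (b.2 + R) + 1) :=
      conn_col fun i hi hi' => hout _ (by dsimp only; omega)
    have p3 : Conn Kᶜ (2 * (b.1 - R) - 1, 2 * (b.2 + R) + 1) (2 * (b.1 + R) + 1, 2 * (b.2 + R) + 1) :=
      conn_row fun i hi hi' => hout _ (by dsimp only; omega)
    have p4 : Conn Kᶜ (2 * (b.1 + R) + 1, 2 * (b.2 + R) + 1) (2 * (b.1 + R) + 1, 2 * b.2 - 2) :=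
      conn_col fun i hi hi' => hout _ (by dsimp only; omega)
    have p5 : Conn Kᶜ (2 * (b.1 + R) + 1, 2 * b.2 - 2) (2 * (b.1 + r), 2 * b.2 - 2) :=
      conn_row fun i hi hi' => hout _ (by dsimp only; omega)
    exact (((p1.trans p2).trans p3).trans p4).trans p5
  have hk0 : ((2 * (b.1 - r) + 1, 2 * b.2 - 2) : Pt) ∈ K := hBK ((mB _).2 (by dsimp only; omega))
  have hk1 : ((2 * (b.1 + r) - 1, 2 * b.2 - 2) : Pt) ∈ K := hBK ((mB _).2 (by dsimp only; omega))
  have a0 : Adj ((2 * (b.1 - r) + 1, 2 * b.2 - 2) : Pt) (2 * (b.1 - r), 2 * b.2 - 2) := by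
    rw [adj_iff]; dsimp only; omega
  have a1 : Adj ((2 * (b.1 + r) - 1, 2 * b.2 - 2) : Pt) (2 * (b.1 + r), 2 * b.2 - 2) := by
    rw [adj_iff]; dsimp only; omega
  have hch := chain hKc hk0 hk1 hpath a0 a1
  obtain ⟨Goal, hGoal⟩ : ∃ Goal : Prop, Goal = ∃ a a' : Pt, a.2 = 2 * b.2 ∧
      a.1 ≤ 2 * (b.1 - r) ∧ a'.2 = 2 * b.2 ∧ 2 * (b.1 + r) ≤ a'.1 ∧
      Conn (Sc (1 - e) Fᶜ ∩ Zs b r R) a a' := ⟨_, rfl⟩
  have key := chain_ind (K := K) (fun _ w => (w.2 ≤ 2 * b.2 - 1 ∧ w.1 ≤ 2 * (b.1 - r)) ∨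
      (∃ a : Pt, a.2 = 2 * b.2 ∧ a.1 ≤ 2 * (b.1 - r) ∧
        Conn (Sc (1 - e) Fᶜ ∩ Zs b r R) a w) ∨ Goal) hk0 hpath.left_mem a0
    (Or.inl (by dsimp only; omega)) (fun _ _ _ _ _ _ _ _ _ h => h) ?_ hch
  · rcases key with h3 | ⟨a, -, -, h3⟩ | h3
    · dsimp only at h3; omega
    · have := h3.right_mem.2
      simp only [Zs, Set.mem_ofPred_eq] at this
      omega
    · rw [hGoal] at h3
      obtain ⟨a, a', g1, g2, g4, g5, g6⟩ := h3
      have ca : ¬ Ctr a := not_ctr_right g1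
      have ca' : ¬ Ctr a' := not_ctr_right g4
      have e1 : st a = ((a.1 + 1) / 2, b.2) := by
        refine Prod.ext rfl ?_
        simp only [st]; omega
      have e2 : st a' = ((a'.1 + 1) / 2, b.2) := by
        refine Prod.ext rfl ?_
        simp only [st]; omega
      have hz := g6.left_mem.2
      have hz' := g6.right_mem.2
      simp only [Zs, Set.mem_ofPred_eq] at hz hz'
      have hpar := parity_of_mem g6.left_mem.1 ca
      rw [e1] at hpar
      have hP := nr_proj g6 (w := st a) (w' := st a') (Or.inl ⟨ca, rfl⟩) (Or.inl ⟨ca', rfl⟩)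
      rw [e1, e2] at hP
      exact ⟨(a.1 + 1) / 2, (a'.1 + 1) / 2, by omega, by omega, by omega, by omega, hpar, hP⟩
  · intro k w w' hk hw hw' hkw hkw' hww' hQ
    rcases hQ with hQ | ⟨a, q1, q2, q4⟩ | hQ
    · by_cases hlow : w'.2 ≤ 2 * b.2 - 1
      · left
        have hwB : w' ∉ B := fun h => hw' (hBK h)
        rw [mB] at hwB
        rw [adj_iff] at hww'
        omega
      · push Not at hlow
        right; left
        have hD := cl1 k w' hk hw' hkw' (by omega)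
        have hww2 := hww'
        rw [adj_iff] at hww2
        have hw2 : w'.2 = 2 * b.2 := by omega
        exact ⟨w', hw2, by omega, Conn.refl hD⟩
    · have hwZ := q4.right_mem.2
      simp only [Zs, Set.mem_ofPred_eq] at hwZ
      by_cases hlow : w'.2 ≤ 2 * b.2 - 1
      · have hwB : w' ∉ B := fun h => hw' (hBK h)
        rw [mB] at hwB
        rw [adj_iff] at hww'
        by_cases hl : w'.1 ≤ 2 * (b.1 - r)
        · exact Or.inl ⟨hlow, hl⟩
        · right; right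
          rw [hGoal]
          exact ⟨a, w, q1, q2, by omega, by omega, q4⟩
      · push Not at hlow
        right; left
        exact ⟨a, q1, q2, q4.tail hww' (cl1 k w' hk hw' hkw' (by omega))⟩
    · exact Or.inr (Or.inr hQ)

end Vale.Agent.P167.H192.TA
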