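import Vale.Agent.P167.H192.TA.Main
import Vale.Agent.P167.H192.Dict2
import Vale.Agent.P167.H365.NDefs
import Vale.Agent.P167.BR.Pot

/-!
# P167, blocks TWO-ARM / N-RED: crossings by the interface and crossings by clusters

`hx_of_cro`: a crossing of the half annulus by the interface gives crossings of both colours.
`sep_cro`: two crossings by the interface: one of them has both neighbouring chains off the clusters
of the left ray.
-/

namespace Vale.Agent.P167.H192.TA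

open Vale.Agent.P145.FB Vale.Agent.P153 Vale.Agent.P153.Topo Vale.Agent.P167
  Vale.Agent.P167.H871 Vale.Agent.P167.H632 Vale.Agent.P167.H365 Vale.Agent.P167.BR
open Relation

/-! ### Chains -/

/-- The site of colour `c` of a medial edge. -/
def sc (c : Bool) (e : Ed) : Pt := if c then ls e else rs e

theorem sc_nx {ω : Cfg} {D : Finset Pt} {e : Ed} (c : Bool) (he : hdv e ∈ D) :
    sc c (nx ω e) = sc c e ∨ PStep (cs c ω ∩ ↑D) (sc c e) (sc c (nx ω e)) := by
  cases c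
  · simp only [sc, Bool.false_eq_true, if_false]
    rcases H192.ls_nx ω e with ⟨h1, -, h2, -⟩ | ⟨h0, h1, h2, h3⟩
    · exact Or.inl h2
    · refine Or.inr ⟨h1.1, h1.2.1, ?_⟩
      rw [h3]
      exact ⟨h0, he⟩
  · simp only [sc, if_true]
    rcases H192.ls_nx ω e with ⟨h0, h1, -, h3⟩ | ⟨h1, -, h2, -⟩
    · refine Or.inr ⟨h1.1, h1.2.1, ?_⟩
      rw [h3]
      exact ⟨h0, he⟩
    · exact Or.inl h2

theorem sc_par (c : Bool) (e : Ed) : ((sc c e).1 + (sc c e).2) % 2 = pr c := by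
  cases c
  · simp only [sc, pr, Bool.false_eq_true, if_false]
    exact rs_par' e
  · simp only [sc, pr, if_true]
    exact ls_par' e
where
  ls_par' (e : Ed) : ((ls e).1 + (ls e).2) % 2 = 0 := by
    rcases e with ⟨x, y⟩ | ⟨x, y⟩ <;> by_cases h : Even (x + y) <;>
      simp only [ls, h, if_true, if_false] <;> rw [Int.even_iff] at h <;> omega
  rs_par' (e : Ed) : ((rs e).1 + (rs e).2) % 2 = 1 := by
    rcases e with ⟨x, y⟩ | ⟨x, y⟩ <;> by_cases h : Even (x + y) <;>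
      simp only [rs, h, if_true, if_false] <;> rw [Int.even_iff] at h <;> omega

/-- The chain of colour `c` along a run. -/
theorem run_sc {ω : Cfg} {D : Finset Pt} {e : Ed} (c : Bool) {k : ℕ} {e' : Ed}
    (h : Run ω D e k e') : Pw (cs c ω ∩ ↑D) (sc c e) (sc c e') := by
  obtain ⟨h1, h2⟩ := h
  subst h1
  induction k with
  | zero => exact ReflTransGen.refl
  | succ k ih =>
    have h3 := ih (fun j hj => h2 j (by omega))
    rw [Function.iterate_succ_apply']
    rcases sc_nx (ω := ω) c (h2 k (by omega)) with h | h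
    · rw [h]; exact h3
    · exact h3.tail h

theorem sc_hdv (c : Bool) (e : Ed) : ((sc c e).1 = (hdv e).1 ∨ (sc c e).1 = (hdv e).1 + 1) ∧
    ((sc c e).2 = (hdv e).2 ∨ (sc c e).2 = (hdv e).2 + 1) := by
  have h := corner_hd e
  cases c
  · exact ⟨h.2.2.1, h.2.2.2⟩
  · exact ⟨h.1, h.2.1⟩

theorem sc_tlv (c : Bool) (e : Ed) : ((sc c e).1 = (tlv e).1 ∨ (sc c e).1 = (tlv e).1 + 1) ∧
    ((sc c e).2 = (tlv e).2 ∨ (sc c e).2 = (tlv e).2 + 1) := by
  have h := corner_tl e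
  cases c
  · exact ⟨h.2.2.1, h.2.2.2⟩
  · exact ⟨h.1, h.2.1⟩

theorem nm_cor {b v x : Pt} (hx : (x.1 = v.1 ∨ x.1 = v.1 + 1) ∧ (x.2 = v.2 ∨ x.2 = v.2 + 1)) :
    nm (x - b) ≤ nm (v - b) + 1 ∧ nm (v - b) ≤ nm (x - b) + 1 := by
  have k1 : nm (x - b) ≤ nm (x - b) := le_rfl
  have k2 : nm (v - b) ≤ nm (v - b) := le_rfl
  constructor
  · rw [nm_le] at k2 ⊢
    simp only [Prod.fst_sub, Prod.snd_sub] at *
    omega
  · rw [nm_le] at k1 ⊢
    simp only [Prod.fst_sub, Prod.snd_sub] at *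
    omega

/-- A path across the half annulus contains a crossing with squares of the half annulus. -/
theorem cut_dq {G : Set Pt} {b : Pt} {r R : ℤ} (hrR : r ≤ R) {y y' : Pt} (hy : b.2 ≤ y.2)
    (hG : ∀ v ∈ G, b.2 ≤ v.2) (h : Pw G y y') (h1 : nm (y - b) ≤ r) (h2 : R ≤ nm (y' - b)) :
    ∃ y0 y1, Pw G y y0 ∧ y0 ∈ sr b r R ∧ nm (y0 - b) ≤ r ∧ Pw (G ∩ dq b r R) y0 y1 ∧
      R ≤ nm (y1 - b) := by
  have hP : PConn G (hp b) y y' := by
    clear h2
    induction h with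
    | refl => exact PConn.refl hy
    | @tail u v _ huv ih =>
      refine ih.tail huv ?_
      have := hG _ huv.2.2
      obtain ⟨p1, p2, -⟩ := huv
      simp only [hp, Set.mem_ofPred_eq] at this ⊢
      omega
  obtain ⟨z, z', k1, k2, k3, ⟨k4, k5⟩, -⟩ := crossing hrR hP h1 h2
  have hyz : Pw G y z := by
    obtain ⟨-, g⟩ := k3
    clear k1 k4 k5
    induction g with
    | refl => exact ReflTransGen.refl
    | tail _ hab ih => exact ih.tail hab.1
  have key : ∃ y0, Pw G z y0 ∧ y0 ∈ sr b r R ∧ nm (y0 - b) ≤ r ∧ Pw (G ∩ dq b r R) y0 z' := by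
    clear k2 k3
    induction k5 with
    | refl => exact ⟨z, ReflTransGen.refl, by rw [sr_eq]; exact k4, k1.le, ReflTransGen.refl⟩
    | @tail x w hx hxw ih =>
      obtain ⟨y0, g1, g2, g3, g4⟩ := ih
      have hxw' : Pw G z w := (g1.trans (g4.mono Set.inter_subset_left)).tail hxw.1
      by_cases hz : nm (w - b) ≤ r
      · exact ⟨w, hxw', by rw [sr_eq]; exact hxw.2, hz, ReflTransGen.refl⟩
      · refine ⟨y0, g1, g2, g3, g4.tail ⟨hxw.1.1, hxw.1.2.1, hxw.1.2.2, ?_⟩⟩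
        have hxs := g4.mem_sr g2
        have hzs : w ∈ sr b r R := by rw [sr_eq]; exact hxw.2
        have hz' : r + 1 ≤ nm (w - b) := by omega
        rw [le_nm] at hz'
        obtain ⟨⟨p1, p2, -⟩, -⟩ := hxw
        simp only [sr, dq, Set.mem_ofPred_eq, Prod.fst_sub, Prod.snd_sub] at *
        omega
  obtain ⟨y0, g1, g2, g3, g4⟩ := key
  exact ⟨y0, z', hyz.trans g1, g2, g3, g4, k2.ge⟩

/-- The inner edge of a crossing: one square in the half annulus, one inside. -/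
def IE (b : Pt) (r R : ℤ) (g : Ed) : Prop :=
  (hdv g ∈ hA b r R ∧ H365.Inn b r (tlv g)) ∨ (tlv g ∈ hA b r R ∧ H365.Inn b r (hdv g))

theorem not_inn {b v : Pt} {r R : ℤ} (h : H365.Inn b r v) : v ∉ hA b r R := fun h' => by
  have := (mem_hA.1 h').2.1
  have := h.2
  omega

theorem not_out {b v : Pt} {r R : ℤ} (h : H365.Out b R v) : v ∉ hA b r R := fun h' => by
  have := (mem_hA.1 h').2.2
  have := h.2
  omega

/-- **A crossing**: the piece, its inner edge, its other boundary edge is an outer edge. -/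
theorem cro_piece {ω : Cfg} {b : Pt} {r R : ℤ} (hrR : r ≤ R) {e : Ed} (h : Cro ω b r R e) :
    ∃ A g, A ∈ pcs ω (hA b r R) ∧ e ∈ A ∧ tlv e ∉ hA b r R ∧ g ∈ A ∧ IE b r R g ∧
      (∀ f ∈ A, (hdv f ∉ hA b r R → f = g ∨ H365.Out b R (hdv f)) ∧
        (tlv f ∉ hA b r R → f = g ∨ H365.Out b R (tlv f))) ∧
      ∀ c, ∃ z, Pw (cs c ω ∩ ↑(hA b r R)) (sc c g) z ∧ R ≤ nm (z - b) := by
  rcases h with ⟨k, h1, h2, h3⟩ | ⟨k, h1, h2, h3⟩
  · have hk : k ≠ 0 := by
      rintro rfl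
      have e1 := (nm_hdv_tlv b e).1
      have e2 := h2.2
      have e3 := h3.2
      rw [Function.iterate_zero, id] at e3
      omega
    have hd : hdv e ∈ hA b r R := h1.2 0 (by omega)
    have he : e ∈ eds (hA b r R) := mem_eds.2 (Or.inl hd)
    have ht : tlv e ∉ hA b r R := not_inn h2
    have hl : (nx ω)^[k] e ∈ piece ω (hA b r R) e :=
      (mem_of_run (piece_mem_pcs he) h1).1 (self_mem_piece he)
    refine ⟨piece ω (hA b r R) e, e, piece_mem_pcs he, self_mem_piece he, ht, self_mem_piece he,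
      Or.inl ⟨hd, h2⟩, fun f hf => ⟨fun h => Or.inr ?_, fun h => Or.inl ?_⟩, fun c => ?_⟩
    · rw [exit_unique (piece_mem_pcs he) hf hl h (not_out h3)]
      exact h3
    · exact entry_unique (piece_mem_pcs he) hf (self_mem_piece he) h ht
    · refine ⟨_, run_sc c h1, ?_⟩
      have := (nm_cor (b := b) (sc_hdv c ((nx ω)^[k] e))).2
      have := h3.2
      omega
  · have hk : k ≠ 0 := by
      rintro rfl
      have e1 := (nm_hdv_tlv b e).2
      have e2 := h2.2
      have e3 := h3.2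
      rw [Function.iterate_zero, id] at e3
      omega
    have hd : hdv e ∈ hA b r R := h1.2 0 (by omega)
    have he : e ∈ eds (hA b r R) := mem_eds.2 (Or.inl hd)
    have ht : tlv e ∉ hA b r R := not_out h2
    have hl : (nx ω)^[k] e ∈ piece ω (hA b r R) e :=
      (mem_of_run (piece_mem_pcs he) h1).1 (self_mem_piece he)
    have htl : tlv ((nx ω)^[k] e) ∈ hA b r R := by
      obtain ⟨m, rfl⟩ : ∃ m, k = m + 1 := ⟨k - 1, by omega⟩
      rw [Function.iterate_succ_apply', tlv_nx]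
      exact h1.2 m (by omega)
    refine ⟨piece ω (hA b r R) e, (nx ω)^[k] e, piece_mem_pcs he, self_mem_piece he, ht, hl,
      Or.inr ⟨htl, h3⟩, fun f hf => ⟨fun h => Or.inl ?_, fun h => Or.inr ?_⟩, fun c => ?_⟩
    · exact exit_unique (piece_mem_pcs he) hf hl h (not_inn h3)
    · rw [entry_unique (piece_mem_pcs he) hf (self_mem_piece he) h ht]
      exact h2
    · refine ⟨_, (run_sc c h1).symm, ?_⟩
      have := (nm_cor (b := b) (sc_tlv c e)).2
      have := h2.2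
      omega

/-- The sites of an inner edge. -/
theorem IE.site {b : Pt} {r R : ℤ} {g : Ed} (h : IE b r R g) (c : Bool) :
    nm (sc c g - b) ≤ r ∧ b.2 ≤ (sc c g).2 := by
  rcases h with ⟨-, h⟩ | ⟨-, h⟩
  · have h1 := (nm_cor (b := b) (sc_tlv c g)).1
    have h2 := sc_tlv c g
    have h3 := h.1
    have h4 := h.2
    omega
  · have h1 := (nm_cor (b := b) (sc_hdv c g)).1
    have h2 := sc_hdv c g
    have h3 := h.1
    have h4 := h.2
    omega

/-- **A crossing by the interface gives crossings of both colours.** -/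
theorem hx_of_cro {ω : Cfg} {b : Pt} {r R : ℤ} (hrR : r ≤ R) {e : Ed} (h : Cro ω b r R e)
    (c : Bool) : ω ∈ HX c b r R := by
  obtain ⟨A, g, -, -, -, -, h1, -, h2⟩ := cro_piece hrR h
  obtain ⟨z, h3, h4⟩ := h2 c
  obtain ⟨y0, y1, k1, k2, k3, k4, k5⟩ := cut_dq hrR (h1.site c).2 (fun v hv => (mem_hA.1 hv.2).1) h3
    (h1.site c).1 h4
  refine hx_of_path hrR k2 ?_ (k4.mono (Set.inter_subset_inter_left _ Set.inter_subset_left)) k3 k5
  rw [← k1.parity, sc_par]

theorem hx_of_twoS {ω : Cfg} {b : Pt} {r R : ℤ} (hrR : r ≤ R) (h : TwoS b r R ω) :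
    ω ∈ HX true b r R ∩ HX false b r R := by
  obtain ⟨e, he⟩ := h
  exact ⟨hx_of_cro hrR he true, hx_of_cro hrR he false⟩

/-! ### The complement of the half annulus is connected -/

section Con

variable {D : Finset Pt}

theorem adj_h {x y : ℤ} (h1 : (x, y) ∉ D) (h2 : (x + 1, y) ∉ D) : BR.Adj D (x, y) (x + 1, y) := by
  refine ⟨Sum.inl (x, y), fun h => ?_, ?_⟩
  · rw [mem_eds] at h
    by_cases hp : Even (x + y) <;> simp only [hdv, tlv, hp, if_true, if_false] at h <;> tauto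
  · by_cases hp : Even (x + y) <;> simp [hdv, tlv, hp]

theorem adj_v {x y : ℤ} (h1 : (x, y) ∉ D) (h2 : (x, y + 1) ∉ D) : BR.Adj D (x, y) (x, y + 1) := by
  refine ⟨Sum.inr (x, y), fun h => ?_, ?_⟩
  · rw [mem_eds] at h
    by_cases hp : Even (x + y) <;> simp only [hdv, tlv, hp, if_true, if_false] at h <;> tauto
  · by_cases hp : Even (x + y) <;> simp [hdv, tlv, hp]

theorem adj_symm {v w : Pt} (h : ReflTransGen (BR.Adj D) v w) : ReflTransGen (BR.Adj D) w v := by
  induction h with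
  | refl => exact ReflTransGen.refl
  | tail _ h ih => exact ReflTransGen.head h.symm ih

theorem hmove {y x x' : ℤ} (hx : x ≤ x') (h : ∀ t, x ≤ t → t ≤ x' → (t, y) ∉ D) :
    ReflTransGen (BR.Adj D) (x, y) (x', y) := by
  induction x', hx using Int.leInduction with
  | base => exact ReflTransGen.refl
  | succ n hn ih =>
    exact (ih fun t h1 h2 => h t h1 (by omega)).tail (adj_h (h n hn (by omega)) (h (n + 1) (by omega) le_rfl))

theorem vmove {x y y' : ℤ} (hy : y ≤ y') (h : ∀ t, y ≤ t → t ≤ y' → (x, t) ∉ D) :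
    ReflTransGen (BR.Adj D) (x, y) (x, y') := by
  induction y', hy using Int.leInduction with
  | base => exact ReflTransGen.refl
  | succ n hn ih =>
    exact (ih fun t h1 h2 => h t h1 (by omega)).tail (adj_v (h n hn (by omega)) (h (n + 1) (by omega) le_rfl))

end Con

theorem mem_hA' {b : Pt} {r R x y : ℤ} : (x, y) ∈ hA b r R ↔
    b.2 ≤ y ∧ (x - b.1 ≤ -r ∨ r ≤ x - b.1 ∨ y - b.2 ≤ -r ∨ r ≤ y - b.2) ∧
      -R ≤ x - b.1 ∧ x - b.1 ≤ R ∧ -R ≤ y - b.2 ∧ y - b.2 ≤ R := by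
  rw [mem_hA, le_nm, nm_le]
  rfl

theorem inn_iff {b : Pt} {r x y : ℤ} : H365.Inn b r (x, y) ↔
    b.2 ≤ y ∧ -r < x - b.1 ∧ x - b.1 < r ∧ y - b.2 < r ∧ -r < y - b.2 := by
  unfold H365.Inn
  have h : nm ((x, y) - b) < r ↔ nm ((x, y) - b) ≤ r - 1 := by omega
  rw [h, nm_le]
  simp only [Prod.fst_sub, Prod.snd_sub]
  omega

/-- Every square off the half annulus is joined to the square below the centre. -/
theorem base_conn {b : Pt} {r R : ℤ} (v : Pt) (hv : v ∉ hA b r R) :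
    ReflTransGen (BR.Adj (hA b r R)) v (b.1, b.2 - 1) := by
  have low : ∀ x : ℤ, ReflTransGen (BR.Adj (hA b r R)) (x, b.2 - 1) (b.1, b.2 - 1) := by
    intro x
    rcases le_total x b.1 with h | h
    · exact hmove h fun t _ _ ht => by rw [mem_hA'] at ht; omega
    · exact adj_symm (hmove h fun t _ _ ht => by rw [mem_hA'] at ht; omega)
  obtain ⟨x, y⟩ := v
  rw [mem_hA'] at hv
  by_cases h1 : y < b.2
  · exact (vmove (D := hA b r R) (x := x) (y := y) (y' := b.2 - 1) (by omega)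
      fun t _ _ ht => by rw [mem_hA'] at ht; omega).trans (low x)
  · by_cases h2 : y - b.2 ≤ R ∨ (-r < x - b.1 ∧ x - b.1 < r ∧ y - b.2 < r)
    · refine (adj_symm (vmove (D := hA b r R) (x := x) (y := b.2 - 1) (y' := y) (by omega)
        fun t h3 h4 ht => ?_)).trans (low x)
      rw [mem_hA'] at ht
      omega
    · -- above the half annulus
      have h3 : ReflTransGen (BR.Adj (hA b r R)) (b.1 + |R| + |x| + |b.1| + 1, y)
          (b.1 + |R| + |x| + |b.1| + 1, b.2 - 1) := by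
        refine adj_symm (vmove (by omega) fun t h3 h4 ht => ?_)
        rw [mem_hA'] at ht
        have := le_abs_self R
        have := abs_nonneg x
        have := abs_nonneg b.1
        omega
      have h4 : ReflTransGen (BR.Adj (hA b r R)) (x, y) (b.1 + |R| + |x| + |b.1| + 1, y) := by
        refine hmove (by
          have := abs_nonneg R
          have := le_abs_self x
          have := neg_abs_le b.1
          omega) fun t h3 h4 ht => ?_
        rw [mem_hA'] at ht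
        omega
      exact h4.trans (h3.trans (low _))

theorem scon_hA (b : Pt) (r R : ℤ) : SCon (hA b r R) := fun _ _ _ _ h1 h2 =>
  (base_conn _ h1).trans (adj_symm (base_conn _ h2))

/-! ### The lower boundary of the half annulus -/

/-- The sites of the lower boundary. -/
def qs (b : Pt) (r i : ℤ) : Pt :=
  (b.1 - r + 1 + min i 0 + max 0 (min (i - r) (2 * r - 1)) + max 0 (i - (4 * r - 1)),
    b.2 + max 0 (min r (min i (4 * r - 1 - i))))

/-- The edges of the lower boundary. -/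
def qe (b : Pt) (r i : ℤ) : Ed :=
  if i < 0 then Sum.inr (b.1 - r + 1 + i, b.2 - 1)
  else if i < r then Sum.inl (b.1 - r, b.2 + i)
  else if i < 3 * r - 1 then Sum.inr (b.1 - r + 1 + (i - r), b.2 + r - 1)
  else if i < 4 * r - 1 then Sum.inl (b.1 + r - 1, b.2 + (4 * r - 2 - i))
  else Sum.inr (b.1 + r + (i - (4 * r - 1)), b.2 - 1)

theorem sid_r (x y : ℤ) : (ls (Sum.inr (x, y)) = (x, y + 1) ∧ rs (Sum.inr (x, y)) = (x + 1, y + 1)) ∨
    (ls (Sum.inr (x, y)) = (x + 1, y + 1) ∧ rs (Sum.inr (x, y)) = (x, y + 1)) := by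
  by_cases h : Even (x + y) <;> simp [ls, rs, h]

theorem sid_l (x y : ℤ) : (ls (Sum.inl (x, y)) = (x + 1, y) ∧ rs (Sum.inl (x, y)) = (x + 1, y + 1)) ∨
    (ls (Sum.inl (x, y)) = (x + 1, y + 1) ∧ rs (Sum.inl (x, y)) = (x + 1, y)) := by
  by_cases h : Even (x + y) <;> simp [ls, rs, h]

theorem sqr_r (x y : ℤ) : (hdv (Sum.inr (x, y)) = (x, y) ∧ tlv (Sum.inr (x, y)) = (x, y + 1)) ∨
    (hdv (Sum.inr (x, y)) = (x, y + 1) ∧ tlv (Sum.inr (x, y)) = (x, y)) := by
  by_cases h : Even (x + y) <;> simp [hdv, tlv, h]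

theorem sqr_l (x y : ℤ) : (hdv (Sum.inl (x, y)) = (x, y) ∧ tlv (Sum.inl (x, y)) = (x + 1, y)) ∨
    (hdv (Sum.inl (x, y)) = (x + 1, y) ∧ tlv (Sum.inl (x, y)) = (x, y)) := by
  by_cases h : Even (x + y) <;> simp [hdv, tlv, h]

theorem qe_sides {b : Pt} {r : ℤ} (hr : 1 ≤ r) (i : ℤ) :
    (ls (qe b r i) = qs b r i ∧ rs (qe b r i) = qs b r (i + 1)) ∨
      (ls (qe b r i) = qs b r (i + 1) ∧ rs (qe b r i) = qs b r i) := by
  unfold qe
  split_ifs with h1 h2 h3 h4
  · have e1 : qs b r i = (b.1 - r + 1 + i, b.2 - 1 + 1) := by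
      refine Prod.ext ?_ ?_ <;> simp only [qs] <;> omega
    have e2 : qs b r (i + 1) = (b.1 - r + 1 + i + 1, b.2 - 1 + 1) := by
      refine Prod.ext ?_ ?_ <;> simp only [qs] <;> omega
    rw [e1, e2]
    exact sid_r _ _
  · have e1 : qs b r i = (b.1 - r + 1, b.2 + i) := by
      refine Prod.ext ?_ ?_ <;> simp only [qs] <;> omega
    have e2 : qs b r (i + 1) = (b.1 - r + 1, b.2 + i + 1) := by
      refine Prod.ext ?_ ?_ <;> simp only [qs] <;> omega
    rw [e1, e2]
    exact sid_l _ _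
  · have e1 : qs b r i = (b.1 - r + 1 + (i - r), b.2 + r - 1 + 1) := by
      refine Prod.ext ?_ ?_ <;> simp only [qs] <;> omega
    have e2 : qs b r (i + 1) = (b.1 - r + 1 + (i - r) + 1, b.2 + r - 1 + 1) := by
      refine Prod.ext ?_ ?_ <;> simp only [qs] <;> omega
    rw [e1, e2]
    exact sid_r _ _
  · have e1 : qs b r i = (b.1 + r - 1 + 1, b.2 + (4 * r - 2 - i) + 1) := by
      refine Prod.ext ?_ ?_ <;> simp only [qs] <;> omega
    have e2 : qs b r (i + 1) = (b.1 + r - 1 + 1, b.2 + (4 * r - 2 - i)) := by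
      refine Prod.ext ?_ ?_ <;> simp only [qs] <;> omega
    rw [e1, e2]
    exact (sid_l _ _).symm
  · have e1 : qs b r i = (b.1 + r + (i - (4 * r - 1)), b.2 - 1 + 1) := by
      refine Prod.ext ?_ ?_ <;> simp only [qs] <;> omega
    have e2 : qs b r (i + 1) = (b.1 + r + (i - (4 * r - 1)) + 1, b.2 - 1 + 1) := by
      refine Prod.ext ?_ ?_ <;> simp only [qs] <;> omega
    rw [e1, e2]
    exact sid_r _ _

/-- The squares of a boundary edge: one in the half annulus, the other one below or inside. -/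
theorem qe_sq {b : Pt} {r R : ℤ} (hr : 1 ≤ r) (hrR : r ≤ R) {i : ℤ} (h1 : r - 1 - R ≤ i)
    (h2 : i ≤ R + 3 * r - 1) :
    (hdv (qe b r i) ∈ hA b r R ∧ tlv (qe b r i) ∉ hA b r R ∧ ¬ H365.Out b R (tlv (qe b r i))) ∨
      (tlv (qe b r i) ∈ hA b r R ∧ hdv (qe b r i) ∉ hA b r R ∧ ¬ H365.Out b R (hdv (qe b r i))) := by
  have hout : ∀ x y : ℤ, (y < b.2 ∨ (-r < x - b.1 ∧ x - b.1 < r ∧ b.2 ≤ y ∧ y - b.2 < r)) →
      ¬ H365.Out b R (x, y) ∧ (x, y) ∉ hA b r R := by
    intro x y h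
    constructor
    · rintro ⟨h3, h4⟩
      have h5 : R + 1 ≤ nm ((x, y) - b) := by omega
      rw [le_nm] at h5
      simp only [Prod.fst_sub, Prod.snd_sub] at h3 h5
      omega
    · rw [mem_hA']
      omega
  have key : ∀ v w : Pt, v ∈ hA b r R → (¬ H365.Out b R w ∧ w ∉ hA b r R) →
      ((hdv (qe b r i) = v ∧ tlv (qe b r i) = w) ∨ (hdv (qe b r i) = w ∧ tlv (qe b r i) = v)) →
      (hdv (qe b r i) ∈ hA b r R ∧ tlv (qe b r i) ∉ hA b r R ∧ ¬ H365.Out b R (tlv (qe b r i))) ∨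
      (tlv (qe b r i) ∈ hA b r R ∧ hdv (qe b r i) ∉ hA b r R ∧ ¬ H365.Out b R (hdv (qe b r i))) := by
    rintro v w hv ⟨hw1, hw2⟩ (⟨g1, g2⟩ | ⟨g1, g2⟩)
    · left; rw [g1, g2]; exact ⟨hv, hw2, hw1⟩
    · right; rw [g1, g2]; exact ⟨hv, hw2, hw1⟩
  by_cases a1 : i < 0
  · have e : qe b r i = Sum.inr (b.1 - r + 1 + i, b.2 - 1) := by rw [qe, if_pos a1]
    refine key (b.1 - r + 1 + i, b.2 - 1 + 1) (b.1 - r + 1 + i, b.2 - 1) (by rw [mem_hA']; omega)
      (hout _ _ (by omega)) ?_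
    rw [e]
    exact (sqr_r _ _).symm
  by_cases a2 : i < r
  · have e : qe b r i = Sum.inl (b.1 - r, b.2 + i) := by rw [qe, if_neg a1, if_pos a2]
    refine key (b.1 - r, b.2 + i) (b.1 - r + 1, b.2 + i) (by rw [mem_hA']; omega)
      (hout _ _ (by omega)) ?_
    rw [e]
    exact sqr_l _ _
  by_cases a3 : i < 3 * r - 1
  · have e : qe b r i = Sum.inr (b.1 - r + 1 + (i - r), b.2 + r - 1) := by
      rw [qe, if_neg a1, if_neg a2, if_pos a3]
    refine key (b.1 - r + 1 + (i - r), b.2 + r - 1 + 1) (b.1 - r + 1 + (i - r), b.2 + r - 1)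
      (by rw [mem_hA']; omega) (hout _ _ (by omega)) ?_
    rw [e]
    exact (sqr_r _ _).symm
  by_cases a4 : i < 4 * r - 1
  · have e : qe b r i = Sum.inl (b.1 + r - 1, b.2 + (4 * r - 2 - i)) := by
      rw [qe, if_neg a1, if_neg a2, if_neg a3, if_pos a4]
    refine key (b.1 + r - 1 + 1, b.2 + (4 * r - 2 - i)) (b.1 + r - 1, b.2 + (4 * r - 2 - i))
      (by rw [mem_hA']; omega) (hout _ _ (by omega)) ?_
    rw [e]
    exact (sqr_l _ _).symm
  · have e : qe b r i = Sum.inr (b.1 + r + (i - (4 * r - 1)), b.2 - 1) := by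
      rw [qe, if_neg a1, if_neg a2, if_neg a3, if_neg a4]
    refine key (b.1 + r + (i - (4 * r - 1)), b.2 - 1 + 1) (b.1 + r + (i - (4 * r - 1)), b.2 - 1)
      (by rw [mem_hA']; omega) (hout _ _ (by omega)) ?_
    rw [e]
    exact (sqr_r _ _).symm

/-- Inner edges are boundary edges. -/
theorem exists_qe {b : Pt} {r R : ℤ} (hr : 1 ≤ r) {g : Ed} (hg : IE b r R g) :
    ∃ i, 0 ≤ i ∧ i < 4 * r - 1 ∧ qe b r i = g := by
  rcases g with ⟨x, y⟩ | ⟨x, y⟩
  · have h : ((x, y) ∈ hA b r R ∧ H365.Inn b r (x + 1, y)) ∨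
        ((x + 1, y) ∈ hA b r R ∧ H365.Inn b r (x, y)) := by
      rcases sqr_l x y with ⟨e1, e2⟩ | ⟨e1, e2⟩ <;> unfold IE at hg <;> rw [e1, e2] at hg <;> tauto
    simp only [mem_hA', inn_iff] at h
    by_cases hx : x = b.1 - r
    · refine ⟨y - b.2, by omega, by omega, ?_⟩
      rw [qe, if_neg (by omega), if_pos (by omega)]
      congr 1
      refine Prod.ext ?_ ?_ <;> dsimp only <;> omega
    · have hx' : x = b.1 + r - 1 := by omega
      refine ⟨b.2 + 4 * r - 2 - y, by omega, by omega, ?_⟩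
      rw [qe, if_neg (by omega), if_neg (by omega), if_neg (by omega), if_pos (by omega)]
      congr 1
      refine Prod.ext ?_ ?_ <;> dsimp only <;> omega
  · have h : ((x, y) ∈ hA b r R ∧ H365.Inn b r (x, y + 1)) ∨
        ((x, y + 1) ∈ hA b r R ∧ H365.Inn b r (x, y)) := by
      rcases sqr_r x y with ⟨e1, e2⟩ | ⟨e1, e2⟩ <;> unfold IE at hg <;> rw [e1, e2] at hg <;> tauto
    simp only [mem_hA', inn_iff] at h
    refine ⟨r + (x - (b.1 - r + 1)), by omega, by omega, ?_⟩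
    rw [qe, if_neg (by omega), if_neg (by omega), if_pos (by omega)]
    congr 1
    refine Prod.ext ?_ ?_ <;> dsimp only <;> omega

theorem qs_inj {b : Pt} {r : ℤ} (hr : 1 ≤ r) {i j : ℤ} (h : qs b r i = qs b r j) : i = j := by
  have h1 := congrArg Prod.fst h
  have h2 := congrArg Prod.snd h
  simp only [qs] at h1 h2
  omega

theorem qe_inj {b : Pt} {r : ℤ} (hr : 1 ≤ r) {i j : ℤ} (h : qe b r i = qe b r j) : i = j := by
  have h1 := qe_sides (b := b) hr i
  have h2 := qe_sides (b := b) hr j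
  rw [h] at h1
  rcases h1 with ⟨a1, a2⟩ | ⟨a1, a2⟩ <;> rcases h2 with ⟨a3, a4⟩ | ⟨a3, a4⟩
  · exact qs_inj hr (a1.symm.trans a3)
  · have := qs_inj hr (a1.symm.trans a3)
    have := qs_inj hr (a2.symm.trans a4)
    omega
  · have := qs_inj hr (a1.symm.trans a3)
    have := qs_inj hr (a2.symm.trans a4)
    omega
  · exact qs_inj hr (a2.symm.trans a4)

theorem const_seg {f : ℤ → ℤ} {a b : ℤ} (hab : a ≤ b) (h : ∀ i, a ≤ i → i < b → f i = f (i + 1)) :
    f a = f b := by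
  induction b, hab using Int.leInduction with
  | base => rfl
  | succ n hn ih => rw [ih fun i h1 h2 => h i h1 (by omega), h n hn (by omega)]

/-- **The potential of a crossing on the lower boundary.** -/
theorem pot_bd {b : Pt} {r R : ℤ} (hr : 1 ≤ r) (hrR : r ≤ R) {A : Finset Ed}
    {u : Pt → ℤ} (hu : PotD (hA b r R) A u) {g : Ed} (hg : g ∈ A)
    (hA' : ∀ f ∈ A, (hdv f ∉ hA b r R → f = g ∨ H365.Out b R (hdv f)) ∧
        (tlv f ∉ hA b r R → f = g ∨ H365.Out b R (tlv f))) {p : ℤ} (hp0 : 0 ≤ p)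
    (hp1 : p < 4 * r - 1) (hp : qe b r p = g) :
    (∀ i, r - 1 - R ≤ i → i ≤ p → u (qs b r i) = u (qs b r p)) ∧
      (∀ i, p + 1 ≤ i → i ≤ R + 3 * r → u (qs b r i) = u (qs b r (p + 1))) ∧
      u (qs b r p) ≠ u (qs b r (p + 1)) := by
  have hstep : ∀ i, r - 1 - R ≤ i → i ≤ R + 3 * r - 1 → i ≠ p →
      u (qs b r i) = u (qs b r (i + 1)) := by
    intro i h1 h2 h3
    have hnot : qe b r i ∉ A := by
      intro h
      have hne : qe b r i ≠ g := fun h' => h3 (qe_inj hr (h'.trans hp.symm))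
      rcases qe_sq hr hrR h1 h2 with ⟨-, g1, g2⟩ | ⟨-, g1, g2⟩
      · rcases (hA' _ h).2 g1 with g3 | g3
        · exact hne g3
        · exact g2 g3
      · rcases (hA' _ h).1 g1 with g3 | g3
        · exact hne g3
        · exact g2 g3
    have hmem : qe b r i ∈ eds (hA b r R) := by
      rw [mem_eds]
      rcases qe_sq hr hrR h1 h2 with ⟨g0, -⟩ | ⟨g0, -⟩
      · exact Or.inl g0
      · exact Or.inr g0
    have := hu.eq hmem hnot
    rcases qe_sides (b := b) hr i with ⟨e1, e2⟩ | ⟨e1, e2⟩ <;> rw [e1, e2] at this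
    · exact this
    · exact this.symm
  refine ⟨fun i h1 h2 => ?_, fun i h1 h2 => ?_, ?_⟩
  · exact const_seg h2 fun j h3 h4 => hstep j (by omega) (by omega) (by omega)
  · exact (const_seg h1 fun j h3 h4 => hstep j (by omega) (by omega) (by omega)).symm
  · have hmem : qe b r p ∈ eds (hA b r R) := by
      rw [mem_eds]
      rcases qe_sq (b := b) hr hrR (i := p) (by omega) (by omega) with ⟨g0, -⟩ | ⟨g0, -⟩
      · exact Or.inl g0
      · exact Or.inr g0
    have := hu.eq_add hmem (by rw [hp]; exact hg)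
    rcases qe_sides (b := b) hr p with ⟨e1, e2⟩ | ⟨e1, e2⟩ <;> rw [e1, e2] at this <;> omega

/-- **Two crossings by the interface.** One of them has both chains off the left ray: there is an inner
site `sc c g` from which the colour `c` crosses and no point of the left ray is joined to it. -/
theorem sep_cro {ω : Cfg} {b : Pt} {r R : ℤ} (hr : 1 ≤ r) (hrR : r ≤ R) (h : ThrS b r R ω)
    (c : Bool) : ∃ y0 y1, y0 ∈ sr b r R ∧ (y0.1 + y0.2) % 2 = pr c ∧ nm (y0 - b) ≤ r ∧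
      Pw (cs c ω ∩ dq b r R) y0 y1 ∧ R ≤ nm (y1 - b) ∧
      ∀ q ∈ sr b r R, q.2 = b.2 → q.1 < b.1 → ¬ Pw (cs c ω ∩ dq b r R) q y0 := by
  obtain ⟨e, e', hne, he, he'⟩ := h
  obtain ⟨A, g, a1, a2, a3, a4, a5, a6, a7⟩ := cro_piece hrR he
  obtain ⟨A', g', b1, b2, b3, b4, b5, b6, b7⟩ := cro_piece hrR he'
  obtain ⟨p, p1, p2, p3⟩ := exists_qe hr a5
  obtain ⟨p', q1, q2, q3⟩ := exists_qe hr b5
  have hgg : g ≠ g' := by
    rintro rfl
    have hAA := eq_of_mem_pcs a1 b1 a4 b4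
    subst hAA
    exact hne (entry_unique a1 a2 b2 a3 b3)
  have hpp : p ≠ p' := by
    rintro rfl
    exact hgg (p3.symm.trans q3)
  have main : ∀ (A1 : Finset Ed) (g1 g2 : Ed) (i1 i2 : ℤ), A1 ∈ pcs ω (hA b r R) → g1 ∈ A1 →
      (∀ f ∈ A1, (hdv f ∉ hA b r R → f = g1 ∨ H365.Out b R (hdv f)) ∧
        (tlv f ∉ hA b r R → f = g1 ∨ H365.Out b R (tlv f))) →
      IE b r R g2 → (∃ z, Pw (cs c ω ∩ ↑(hA b r R)) (sc c g2) z ∧ R ≤ nm (z - b)) →
      0 ≤ i1 → i1 < i2 → i2 < 4 * r - 1 → qe b r i1 = g1 → qe b r i2 = g2 →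
      ∃ y0 y1, y0 ∈ sr b r R ∧ (y0.1 + y0.2) % 2 = pr c ∧ nm (y0 - b) ≤ r ∧
      Pw (cs c ω ∩ dq b r R) y0 y1 ∧ R ≤ nm (y1 - b) ∧
      ∀ q ∈ sr b r R, q.2 = b.2 → q.1 < b.1 → ¬ Pw (cs c ω ∩ dq b r R) q y0 := by
    intro A1 g1 g2 i1 i2 k1 k2 k3 k4 ⟨z, k5, k6⟩ k7 k8 k9 k10 k11
    obtain ⟨u, hu⟩ := exists_potD (scon_hA b r R) k1
    obtain ⟨v1, v2, v3⟩ := pot_bd hr hrR hu k2 k3 k7 (by omega) k10
    obtain ⟨y0, y1, w1, w2, w3, w4, w5⟩ := cut_dq hrR (k4.site c).2 (fun v hv => (mem_hA.1 hv.2).1) k5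
      (k4.site c).1 k6
    have hpath : ∀ {s t : Pt}, (s.1 + s.2) % 2 = pr c → Pw (cs c ω ∩ ↑(hA b r R)) s t → u s = u t := by
      intro s t hs hst
      induction hst with
      | refl => rfl
      | @tail x y hx hxy ih =>
        rw [ih]
        have hxp : (x.1 + x.2) % 2 = pr c := by rw [← hs]; exact (Pw.parity hx).symm
        refine pot_stp k1 hu ?_
        cases c
        · refine Or.inr ⟨by rw [Int.even_iff]; simp only [pr, Bool.false_eq_true, if_false] at hxp; omega, ?_⟩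
          have := hxy
          rw [cs_false] at this
          exact this
        · refine Or.inl ⟨by rw [Int.even_iff]; simp only [pr, if_true] at hxp; omega, ?_⟩
          exact hxy
    have hsub : dq b r R ⊆ ↑(hA b r R) := by
      intro v hv
      obtain ⟨x, y⟩ := v
      rw [Finset.mem_coe, mem_hA']
      simp only [dq, Set.mem_ofPred_eq] at hv
      omega
    have hu0 : u y0 = u (qs b r (i1 + 1)) := by
      rw [← hpath (sc_par c g2) w1]
      have : sc c g2 = qs b r i2 ∨ sc c g2 = qs b r (i2 + 1) := by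
        rw [← k11]
        rcases qe_sides (b := b) hr i2 with ⟨e1, e2⟩ | ⟨e1, e2⟩ <;> cases c <;> simp [sc, e1, e2]
      rcases this with h | h <;> rw [h]
      · exact v2 i2 (by omega) (by omega)
      · exact v2 (i2 + 1) (by omega) (by omega)
    refine ⟨y0, y1, w2, by rw [← w1.parity, sc_par], w3,
      w4.mono (Set.inter_subset_inter_left _ Set.inter_subset_left), w5, ?_⟩
    intro q hq hq2 hq1 hcon
    have hqp : (q.1 + q.2) % 2 = pr c := by
      rw [hcon.parity, ← w1.parity, sc_par]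
    have h1 := hpath hqp (hcon.mono (Set.inter_subset_inter_right _ hsub))
    have h2 : q = qs b r (q.1 - (b.1 - r + 1)) := by
      simp only [sr, Set.mem_ofPred_eq] at hq
      refine Prod.ext ?_ ?_ <;> simp only [qs] <;> omega
    have h3 := v1 (q.1 - (b.1 - r + 1)) (by
      simp only [sr, Set.mem_ofPred_eq] at hq
      omega) (by
      simp only [sr, Set.mem_ofPred_eq] at hq
      omega)
    rw [← h2, h1, hu0] at h3
    exact v3 h3.symm
  rcases lt_or_gt_of_ne hpp with h | h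
  · exact main A g g' p p' a1 a4 a6 b5 (b7 c) p1 h q2 p3 q3
  · exact main A' g' g p' p b1 b4 b6 a5 (a7 c) q1 h p2 q3 p3

end Vale.Agent.P167.H192.TA
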