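import Vale.Agent.P167.H192.TA.Geo
import Vale.Agent.P167.H632.Prob

/-!
# P167, block TWO-ARM, part 2: circuits around a part of the boundary, the leftmost crossing

`arc_dual`: if the clusters of colour `c` of the middle part of the right ray do not reach the
inner box, the outer sphere and the left ray, then the other colour joins both sides of this part.
`left_cross`: if the left ray is not joined to the right ray by any colour, then for one of the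
colours the cluster of the left ray contains a crossing.
-/

namespace Vale.Agent.P167.H192.TA

open Vale.Agent.P145.FB Vale.Agent.P153 Vale.Agent.P153.Topo Vale.Agent.P167 Vale.Agent.P167.H871
  Vale.Agent.P167.H632
open Relation

/-! ### Components -/

theorem comp_step {T B : Set Pt} {x y : Pt} (hx : x ∈ comp T B) (h : Adj x y) (hy : y ∈ T) :
    y ∈ comp T B := by
  obtain ⟨b, hb, hbx⟩ := hx
  exact ⟨b, hb, hbx.tail h hy⟩

theorem comp_sub {T B : Set Pt} : comp T B ⊆ T := by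
  rintro x ⟨b, hb, hbx⟩
  exact hbx.right_mem

theorem sub_comp {T B : Set Pt} (h : B ⊆ T) : B ⊆ comp T B := fun x hx => ⟨x, hx, Conn.refl (h hx)⟩

theorem conn_trans_closed {S : Set Pt} {x y : Pt} (h : Conn S x y) :
    Conn {z | Conn S x z} x y :=
  (h.of_closed (T := {z | Conn S x z}) (Conn.refl h.left_mem)
    (fun _ _ hu _ hv huv => hu.tail huv hv)).mono Set.inter_subset_right

theorem comp_conn {T B : Set Pt} (hB : ∀ x ∈ B, ∀ y ∈ B, Conn B x y) (hBT : B ⊆ T) :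
    ∀ x ∈ comp T B, ∀ y ∈ comp T B, Conn (comp T B) x y := by
  have h0 : ∀ x ∈ comp T B, ∃ b ∈ B, Conn (comp T B) b x := by
    rintro x ⟨b, hb, hbx⟩
    refine ⟨b, hb, (conn_trans_closed hbx).mono ?_⟩
    intro z hz
    exact ⟨b, hb, hz⟩
  intro x hx y hy
  obtain ⟨b, hb, h1⟩ := h0 x hx
  obtain ⟨b', hb', h2⟩ := h0 y hy
  exact (h1.symm.trans ((hB b hb b' hb').mono (sub_comp hBT))).trans h2

/-- The chain of the edges between `K` and the component of its complement which contains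
`w₀`. -/
theorem chain {K : Set Pt} (hK : ∀ x ∈ K, ∀ y ∈ K, Conn K x y) {k₀ w₀ k₁ w₁ : Pt} (hk₀ : k₀ ∈ K)
    (hk₁ : k₁ ∈ K) (hw : Conn Kᶜ w₀ w₁) (h₀ : Adj k₀ w₀) (h₁ : Adj k₁ w₁) :
    ReflTransGen (Turn K {z | Conn Kᶜ w₀ z}) (k₀, w₀) (k₁, w₁) := by
  refine interface_connected ?_ (fun x hx y hy => joined_iff_conn.2 (hK x hx y hy)) ?_ ?_ hk₀
    (Conn.refl hw.left_mem) (adj_iff_step.1 h₀) hk₁ hw (adj_iff_step.1 h₁)
  · rw [Set.disjoint_left]
    intro x hx hx'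
    exact hx'.right_mem hx
  · intro x hx y hy
    rw [joined_iff_conn]
    exact (conn_trans_closed hx).symm.trans (conn_trans_closed hy)
  · intro x hx y hxy hy
    exact hx.tail (adj_iff_step.2 hxy) hy

/-- Induction along the chain. -/
theorem chain_ind {K : Set Pt} {k₀ w₀ : Pt} (Q : Pt → Pt → Prop) (hk₀ : k₀ ∈ K)
    (hw₀ : w₀ ∉ K) (h₀ : Adj k₀ w₀) (hQ0 : Q k₀ w₀)
    (hw : ∀ k k' w, k ∈ K → k' ∈ K → w ∉ K → Adj k w → Adj k' w → Adj k k' → Q k w → Q k' w)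
    (hk : ∀ k w w', k ∈ K → w ∉ K → w' ∉ K → Adj k w → Adj k w' → Adj w w' → Q k w → Q k w')
    {k₁ w₁ : Pt} (h : ReflTransGen (Turn K {z | Conn Kᶜ w₀ z}) (k₀, w₀) (k₁, w₁)) : Q k₁ w₁ := by
  have key : ∀ f : Pt × Pt, ReflTransGen (Turn K {z | Conn Kᶜ w₀ z}) (k₀, w₀) f →
      f.1 ∈ K ∧ f.2 ∉ K ∧ Adj f.1 f.2 ∧ Q f.1 f.2 := by
    intro f hf
    induction hf with
    | refl => exact ⟨hk₀, hw₀, h₀, hQ0⟩
    | @tail f g _ hfg ih =>
      obtain ⟨i1, i2, i3, i4⟩ := ih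
      obtain ⟨⟨g1, g2, g3⟩, g4⟩ := hfg
      have g2' : g.2 ∉ K := fun h' => (show Conn Kᶜ w₀ g.2 from g2).right_mem h'
      have g3' := adj_iff_step.2 g3
      refine ⟨g1, g2', g3', ?_⟩
      rcases g4 with ⟨e1, e2⟩ | ⟨e1, e2⟩
      · rw [← e1] at g3' ⊢
        exact hk f.1 f.2 g.2 i1 i2 g2' i3 g3' (adj_iff_step.2 e2) i4
      · rw [← e1] at g3' ⊢
        exact hw f.1 g.1 f.2 i1 g1 i2 i3 g3' (adj_iff_step.2 e2) i4
  exact (key (k₁, w₁) h).2.2.2

/-! ### Circuits around a part of the boundary -/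

theorem nr_low {e : ℤ} (he : e = 0 ∨ e = 1) {z : Pt} (hc : Ctr z) :
    ∃ w, Nr e z w ∧ w.2 = z.2 / 2 ∧ w.1 ≤ z.1 / 2 + 1 := by
  rcases Int.emod_two_eq (z.1 / 2 + z.2 / 2 + e) with h | h
  · exact ⟨(z.1 / 2, z.2 / 2), Or.inr ⟨hc, Or.inl rfl, Or.inl rfl, by dsimp only; omega⟩, rfl,
      by dsimp only; omega⟩
  · exact ⟨(z.1 / 2 + 1, z.2 / 2), Or.inr ⟨hc, Or.inr rfl, Or.inl rfl, by dsimp only; omega⟩, rfl,
      by dsimp only; omega⟩

/-- **Circuits around a part of the right ray.** -/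
theorem arc_dual {F : Set Pt} {b : Pt} {r R m1 m2 e : ℤ} (he : e = 0 ∨ e = 1) (hr : 1 ≤ r)
    (h1 : r < m1) (h12 : m1 ≤ m2) (h2 : m2 ≤ R)
    (H : ∀ x0, b.1 + m1 ≤ x0 → x0 ≤ b.1 + m2 → (x0 + b.2) % 2 = e →
      ∀ v, Pw (F ∩ dq b r R) (x0, b.2) v →
        r < nm (v - b) ∧ nm (v - b) < R ∧ (v.2 = b.2 → b.1 < v.1)) :
    ∃ x x', b.1 + r ≤ x ∧ x ≤ b.1 + m1 ∧ b.1 + m2 ≤ x' ∧ x' ≤ b.1 + R ∧ (x + b.2) % 2 = 1 - e ∧
      Pw (Fᶜ ∩ dq b r R) (x, b.2) (x', b.2) := by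
  obtain ⟨B, hB⟩ : ∃ B : Set Pt, B = {z | 2 * (b.1 + m1) ≤ z.1 ∧ z.1 ≤ 2 * (b.1 + m2) ∧
    z.2 ≤ 2 * b.2 - 1} := ⟨_, rfl⟩
  obtain ⟨A, hA⟩ : ∃ A : Set Pt, A = Sc e F ∩ Zs b r R := ⟨_, rfl⟩
  obtain ⟨K, hK⟩ : ∃ K : Set Pt, K = comp (A ∪ B) B := ⟨_, rfl⟩
  have mB : ∀ z : Pt, z ∈ B ↔ 2 * (b.1 + m1) ≤ z.1 ∧ z.1 ≤ 2 * (b.1 + m2) ∧ z.2 ≤ 2 * b.2 - 1 := by
    intro z; rw [hB]; rfl
  have hBK : B ⊆ K := by rw [hK]; exact sub_comp Set.subset_union_right
  have hKAB : K ⊆ A ∪ B := by rw [hK]; exact comp_sub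
  have hBc : ∀ x ∈ B, ∀ y ∈ B, Conn B x y := by
    rintro ⟨i, j⟩ hx ⟨k, l⟩ hy
    rw [mB] at hx hy
    refine (conn_row (j := j) (s := i) (t := k) ?_).trans (conn_col (i := k) (s := j) (t := l) ?_)
    · intro m hm hm'
      rw [mB]
      dsimp only at *
      omega
    · intro m hm hm'
      rw [mB]
      dsimp only at *
      omega
  have hKc : ∀ x ∈ K, ∀ y ∈ K, Conn K x y := by
    rw [hK]; exact comp_conn hBc Set.subset_union_right
  have hcl : ∀ x ∈ K, ∀ y, Adj x y → y ∈ A ∪ B → y ∈ K := by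
    intro x hx y hxy hy
    rw [hK] at hx ⊢
    exact comp_step hx hxy hy
  -- points of the cluster
  have hatt : ∀ z ∈ K, z ∈ B ∨ (z ∈ A ∧ ∃ x0, b.1 + m1 ≤ x0 ∧ x0 ≤ b.1 + m2 ∧
      (x0 + b.2) % 2 = e ∧ ∀ w, Nr e z w → Pw (F ∩ dq b r R) (x0, b.2) w) := by
    intro z hz
    rw [hK] at hz
    obtain ⟨x, hx, hxz⟩ := hz
    refine Conn.ind (S := A ∪ B) (fun z => z ∈ B ∨ (z ∈ A ∧ ∃ x0, b.1 + m1 ≤ x0 ∧ x0 ≤ b.1 + m2 ∧
      (x0 + b.2) % 2 = e ∧ ∀ w, Nr e z w → Pw (F ∩ dq b r R) (x0, b.2) w)) (Or.inl hx) ?_ hxz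
    intro u v _ huv hv ih
    rcases hv with hv | hv
    swap
    · exact Or.inl hv
    right
    refine ⟨hv, ?_⟩
    rw [hA] at hv
    rcases ih with hu | ⟨hu, x0, k1, k2, k3, k4⟩
    · rw [mB] at hu
      rw [adj_iff] at huv
      have hvz := hv.2
      simp only [Zs, Set.mem_ofPred_eq] at hvz
      have hv2 : v.2 = 2 * b.2 := by omega
      have hc : ¬ Ctr v := not_ctr_right hv2
      have hpar := parity_of_mem hv.1 hc
      have hst : st v = ((v.1 + 1) / 2, b.2) := by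
        refine Prod.ext rfl ?_
        simp only [st]; omega
      rw [hst] at hpar
      refine ⟨(v.1 + 1) / 2, by omega, by omega, hpar, fun w hw => ?_⟩
      rcases hw with ⟨-, hw⟩ | ⟨hw, -⟩
      · rw [hw, hst]
      · exact absurd hw hc
    · rw [hA] at hu
      refine ⟨x0, k1, k2, k3, fun w hw => ?_⟩
      obtain ⟨x', h3, h4⟩ := nr_adj hu.1 hv.1 huv
      exact (k4 x' h3).trans (nr_join hv.1 hv.2 h4 hw)
  have hsite : ∀ z ∈ K, z ∈ A → ∀ w, Nr e z w →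
      r < nm (w - b) ∧ nm (w - b) < R ∧ (w.2 = b.2 → b.1 < w.1) := by
    intro z hz hzA w hw
    rcases hatt z hz with h3 | ⟨-, x0, k1, k2, k3, k4⟩
    · rw [mB] at h3
      rw [hA] at hzA
      have := hzA.2
      simp only [Zs, Set.mem_ofPred_eq] at this
      omega
    · exact H x0 k1 k2 k3 w (k4 w hw)
  -- neighbours of the cluster
  have cl1 : ∀ k w : Pt, k ∈ K → w ∉ K → Adj k w → 2 * b.2 ≤ w.2 →
      w ∈ Sc (1 - e) Fᶜ ∩ Zs b r R := by
    intro k w hk hw hkw hw2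
    have hwZ : w ∈ Zs b r R := by
      rcases hKAB hk with hkA | hkB
      · have hs := hsite k hk hkA
        rw [hA] at hkA
        have hkZ := hkA.2
        rw [adj_iff] at hkw
        by_cases hc : Ctr k
        · obtain ⟨c1, c2⟩ := hc
          simp only [Zs, Set.mem_ofPred_eq] at hkZ ⊢
          omega
        · obtain ⟨s1, s2, -⟩ := hs (st k) (Or.inl ⟨hc, rfl⟩)
          have s1' : r + 1 ≤ nm (st k - b) := by omega
          have s2' : nm (st k - b) ≤ R - 1 := by omega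
          rw [le_nm] at s1'
          rw [nm_le] at s2'
          simp only [st, Prod.fst_sub, Prod.snd_sub] at s1' s2'
          simp only [Zs, Set.mem_ofPred_eq] at hkZ ⊢
          omega
      · rw [mB] at hkB
        rw [adj_iff] at hkw
        simp only [Zs, Set.mem_ofPred_eq]
        omega
    refine ⟨?_, hwZ⟩
    rw [mem_Sc_compl he]
    intro hwS
    exact hw (hcl k hk w hkw (Or.inl (by rw [hA]; exact ⟨hwS, hwZ⟩)))
  have cl2 : ∀ k w : Pt, k ∈ K → w ∉ K → Adj k w → w.2 = 2 * b.2 → 2 * (b.1 + r) ≤ w.1 := by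
    intro k w hk hw hkw hw2
    have hwZ := (cl1 k w hk hw hkw hw2.ge).2
    simp only [Zs, Set.mem_ofPred_eq] at hwZ
    by_contra hcon
    have hw1 : w.1 ≤ 2 * (b.1 - r) := by omega
    rw [adj_iff] at hkw
    rcases hKAB hk with hkA | hkB
    · have hs := hsite k hk hkA
      rw [hA] at hkA
      have hkZ := hkA.2
      simp only [Zs, Set.mem_ofPred_eq] at hkZ
      by_cases hc : Ctr k
      · obtain ⟨s, s1, s2, s3⟩ := nr_low he hc
        have := (hs s s1).2.2 (by omega)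
        omega
      · have := (hs (st k) (Or.inl ⟨hc, rfl⟩)).2.2
        simp only [st] at this
        omega
    · rw [mB] at hkB
      omega
  -- the complement
  have hout : ∀ z : Pt, (z.2 ≤ 2 * b.2 - 1 ∧ (z.1 < 2 * (b.1 + m1) ∨ 2 * (b.1 + m2) < z.1)) ∨
      z.1 < 2 * (b.1 - R) ∨ 2 * (b.1 + R) < z.1 ∨ 2 * (b.2 + R) < z.2 → z ∈ Kᶜ := by
    intro z hz hzK
    rcases hKAB hzK with h3 | h3
    · rw [hA] at h3
      have := h3.2
      simp only [Zs, Set.mem_ofPred_eq] at this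
      omega
    · rw [mB] at h3
      omega
  have hpath : Conn Kᶜ (2 * (b.1 + m1) - 1, 2 * b.2 - 2) (2 * (b.1 + m2) + 1, 2 * b.2 - 2) := by
    have p1 : Conn Kᶜ (2 * (b.1 + m1) - 1, 2 * b.2 - 2) (2 * (b.1 - R) - 1, 2 * b.2 - 2) :=
      conn_row fun i hi hi' => hout _ (by dsimp only; omega)
    have p2 : Conn Kᶜ (2 * (b.1 - R) - 1, 2 * b.2 - 2) (2 * (b.1 - R) - 1, 2 * (b.2 + R) + 1) :=
      conn_col fun i hi hi' => hout _ (by dsimp only; omega)
    have p3 : Conn Kᶜ (2 * (b.1 - R) - 1, 2 * (b.2 + R) + 1) (2 * (b.1 + R) + 1, 2 * (b.2 + R) + 1) :=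
      conn_row fun i hi hi' => hout _ (by dsimp only; omega)
    have p4 : Conn Kᶜ (2 * (b.1 + R) + 1, 2 * (b.2 + R) + 1) (2 * (b.1 + R) + 1, 2 * b.2 - 2) :=
      conn_col fun i hi hi' => hout _ (by dsimp only; omega)
    have p5 : Conn Kᶜ (2 * (b.1 + R) + 1, 2 * b.2 - 2) (2 * (b.1 + m2) + 1, 2 * b.2 - 2) :=
      conn_row fun i hi hi' => hout _ (by dsimp only; omega)
    exact (((p1.trans p2).trans p3).trans p4).trans p5
  have hk0 : ((2 * (b.1 + m1), 2 * b.2 - 2) : Pt) ∈ K := hBK ((mB _).2 (by dsimp only; omega))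
  have hk1 : ((2 * (b.1 + m2), 2 * b.2 - 2) : Pt) ∈ K := hBK ((mB _).2 (by dsimp only; omega))
  have a0 : Adj ((2 * (b.1 + m1), 2 * b.2 - 2) : Pt) (2 * (b.1 + m1) - 1, 2 * b.2 - 2) := by
    rw [adj_iff]; dsimp only; omega
  have a1 : Adj ((2 * (b.1 + m2), 2 * b.2 - 2) : Pt) (2 * (b.1 + m2) + 1, 2 * b.2 - 2) := by
    rw [adj_iff]; dsimp only; omega
  have hch := chain hKc hk0 hk1 hpath a0 a1
  obtain ⟨Goal, hGoal⟩ : ∃ Goal : Prop, Goal = ∃ a a' : Pt, a.2 = 2 * b.2 ∧ 2 * (b.1 + r) ≤ a.1 ∧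
      a.1 ≤ 2 * (b.1 + m1) - 1 ∧ a'.2 = 2 * b.2 ∧ 2 * (b.1 + m2) ≤ a'.1 ∧
      Conn (Sc (1 - e) Fᶜ ∩ Zs b r R) a a' := ⟨_, rfl⟩
  have key := chain_ind (K := K) (fun _ w => (w.2 ≤ 2 * b.2 - 1 ∧ w.1 < 2 * (b.1 + m1)) ∨
      (∃ a : Pt, a.2 = 2 * b.2 ∧ 2 * (b.1 + r) ≤ a.1 ∧ a.1 ≤ 2 * (b.1 + m1) - 1 ∧
        Conn (Sc (1 - e) Fᶜ ∩ Zs b r R) a w) ∨ Goal) hk0 hpath.left_mem a0
    (Or.inl (by dsimp only; omega)) (fun _ _ _ _ _ _ _ _ _ h => h) ?_ hch
  · rcases key with h3 | ⟨a, -, -, -, h3⟩ | h3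
    · dsimp only at h3; omega
    · have := h3.right_mem.2
      simp only [Zs, Set.mem_ofPred_eq] at this
      omega
    · rw [hGoal] at h3
      obtain ⟨a, a', g1, g2, g3, g4, g5, g6⟩ := h3
      have ca : ¬ Ctr a := not_ctr_right g1
      have ca' : ¬ Ctr a' := not_ctr_right g4
      have e1 : st a = ((a.1 + 1) / 2, b.2) := by
        refine Prod.ext rfl ?_
        simp only [st]; omega
      have e2 : st a' = ((a'.1 + 1) / 2, b.2) := by
        refine Prod.ext rfl ?_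
        simp only [st]; omega
      have hz' := g6.right_mem.2
      simp only [Zs, Set.mem_ofPred_eq] at hz'
      have hpar := parity_of_mem g6.left_mem.1 ca
      rw [e1] at hpar
      have hP := nr_proj g6 (w := st a) (w' := st a') (Or.inl ⟨ca, rfl⟩) (Or.inl ⟨ca', rfl⟩)
      rw [e1, e2] at hP
      exact ⟨(a.1 + 1) / 2, (a'.1 + 1) / 2, by omega, by omega, by omega, by omega, hpar, hP⟩
  · intro k w w' hk hw hw' hkw hkw' hww' hQ
    rcases hQ with hQ | ⟨a, q1, q2, q3, q4⟩ | hQ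
    · by_cases hlow : w'.2 ≤ 2 * b.2 - 1
      · left
        have hwB : w' ∉ B := fun h => hw' (hBK h)
        rw [mB] at hwB
        rw [adj_iff] at hww'
        omega
      · push Not at hlow
        right; left
        have hD := cl1 k w' hk hw' hkw' (by omega)
        have hww2 := hww'
        rw [adj_iff] at hww2
        have hw2 : w'.2 = 2 * b.2 := by omega
        exact ⟨w', hw2, cl2 k w' hk hw' hkw' hw2, by omega, Conn.refl hD⟩
    · have hwZ := q4.right_mem.2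
      simp only [Zs, Set.mem_ofPred_eq] at hwZ
      by_cases hlow : w'.2 ≤ 2 * b.2 - 1
      · have hwB : w' ∉ B := fun h => hw' (hBK h)
        rw [mB] at hwB
        rw [adj_iff] at hww'
        by_cases hl : w'.1 < 2 * (b.1 + m1)
        · exact Or.inl ⟨hlow, hl⟩
        · right; right
          rw [hGoal]
          exact ⟨a, w, q1, q2, q3, by omega, by omega, q4⟩
      · push Not at hlow
        right; left
        exact ⟨a, q1, q2, q3, q4.tail hww' (cl1 k w' hk hw' hkw' (by omega))⟩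
    · exact Or.inr (Or.inr hQ)

end Vale.Agent.P167.H192.TA
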