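import Vale.Agent.P167.H192.TA.Arc

/-!
# P167, block TWO-ARM, part 3: the leftmost crossing is joined to the left ray

`left_cross`: if the left ray is not joined to the right ray by any colour, then for one of the
colours the cluster of the left ray contains a crossing of the half annulus.
-/

namespace Vale.Agent.P167.H192.TA

open Vale.Agent.P145.FB Vale.Agent.P153 Vale.Agent.P153.Topo Vale.Agent.P167 Vale.Agent.P167.H871
  Vale.Agent.P167.H632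
open Relation

/-- The points of the half annulus of colour `c`. -/
def Cz (b : Pt) (r R : ℤ) (ω : Cfg) (c : Bool) : Set Pt := Sc (pr c) (cs c ω) ∩ Zs b r R

theorem mem_Cz_not {b : Pt} {r R : ℤ} {ω : Cfg} {c : Bool} {z : Pt} (hz : z ∈ Zs b r R) :
    z ∈ Cz b r R ω (!c) ↔ z ∉ Cz b r R ω c := by
  have h := mem_Sc_compl (F := cs c ω) (pr_or c) (z := z)
  rw [cs_compl, ← pr_not] at h
  unfold Cz
  rw [Set.mem_inter_iff, Set.mem_inter_iff, h]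
  tauto

theorem mem_Cz_or {b : Pt} {r R : ℤ} {ω : Cfg} {z : Pt} (hz : z ∈ Zs b r R) :
    ∃ c, z ∈ Cz b r R ω c := by
  by_cases h : z ∈ Cz b r R ω true
  · exact ⟨true, h⟩
  · exact ⟨false, (mem_Cz_not (c := true) hz).2 h⟩

theorem Cz_eq {b : Pt} {r R : ℤ} {ω : Cfg} {z : Pt} {c c' : Bool} (h : z ∈ Cz b r R ω c)
    (h' : z ∈ Cz b r R ω c') : c = c' := by
  by_contra hne
  have e : c' = !c := by cases c <;> cases c' <;> simp_all
  rw [e] at h'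
  exact (mem_Cz_not h.2).1 h' h

theorem bnot_inj {c c' : Bool} (h : (!c) = (!c')) : c = c' := by
  cases c <;> cases c' <;> simp_all

/-- The points of the complement on the inner side. -/
def Inn (b : Pt) (r : ℤ) (z : Pt) : Prop := (2 * (b.1 - r) < z.1 ∧ z.2 ≤ 2 * b.2 - 1) ∨
  (2 * (b.1 - r) < z.1 ∧ z.1 < 2 * (b.1 + r) ∧ z.2 < 2 * (b.2 + r))

theorem inn1 {b k w : Pt} {r R : ℤ} (hr : 1 ≤ r) (hk : k ∈ Zs b r R)
    (hrow : k.2 = 2 * b.2 → k.1 ≤ 2 * (b.1 - r)) (hkw : Adj k w) (hw : Inn b r w) :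
    ¬ Ctr k ∧ nm (st k - b) ≤ r := by
  rw [adj_iff] at hkw
  unfold Inn at hw
  simp only [Zs, Set.mem_ofPred_eq] at hk
  have hc : ¬ Ctr k := by
    rintro ⟨c1, c2⟩
    omega
  refine ⟨hc, ?_⟩
  rw [nm_le]
  simp only [st, Prod.fst_sub, Prod.snd_sub]
  unfold Ctr at hc
  omega

theorem inn2 {b k w w' : Pt} {r R : ℤ} (hr : 1 ≤ r) (hrR : r + 1 < R)
    (hk : (k.1 ≤ 2 * (b.1 - r) ∧ k.2 ≤ 2 * b.2 - 1) ∨
      (k ∈ Zs b r R ∧ (k.2 = 2 * b.2 → k.1 ≤ 2 * (b.1 - r))))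
    (hkw : Adj k w) (hkw' : Adj k w') (hw : Inn b r w) (hw' : ¬ Inn b r w')
    (hZ : w' ∉ Zs b r R) (hlow : w'.2 ≤ 2 * b.2 - 1 → 2 * (b.1 - r) < w'.1) : False := by
  rw [adj_iff] at hkw hkw'
  unfold Inn at hw hw'
  simp only [Zs, Set.mem_ofPred_eq] at hk hZ
  rcases hk with hk | hk
  · omega
  · omega

theorem inn3 {b k w' : Pt} {r R : ℤ} (hk : k ∈ Zs b r R)
    (hkw' : Adj k w') (hw' : ¬ Inn b r w')
    (hZ : w' ∉ Zs b r R) (hlow : w'.2 ≤ 2 * b.2 - 1 → 2 * (b.1 - r) < w'.1) :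
    ¬ Ctr k ∧ R ≤ nm (st k - b) := by
  rw [adj_iff] at hkw'
  unfold Inn at hw'
  simp only [Zs, Set.mem_ofPred_eq] at hk hZ
  have hc : ¬ Ctr k := by
    rintro ⟨c1, c2⟩
    omega
  refine ⟨hc, ?_⟩
  rw [le_nm]
  simp only [st, Prod.fst_sub, Prod.snd_sub]
  unfold Ctr at hc
  omega

/-- **The leftmost crossing.** -/
theorem left_cross {ω : Cfg} {b : Pt} {r R : ℤ} (hr : 1 ≤ r) (hrR : r + 1 < R)
    (H : ∀ (c : Bool) (p q : Pt), p ∈ sr b r R → p.1 ≤ b.1 - r → p.2 = b.2 →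
      (p.1 + p.2) % 2 = pr c → Pw (cs c ω ∩ dq b r R) p q → q.2 = b.2 → q.1 < b.1 + r) :
    ∃ (c : Bool) (p y y' : Pt), p ∈ sr b r R ∧ p.1 ≤ b.1 - r ∧ p.2 = b.2 ∧
      (p.1 + p.2) % 2 = pr c ∧ Pw (cs c ω ∩ dq b r R) p y ∧ nm (y - b) ≤ r ∧
      Pw (cs c ω ∩ dq b r R) y y' ∧ R ≤ nm (y' - b) := by
  obtain ⟨B, hB⟩ : ∃ B : Set Pt, B = {z | z.1 ≤ 2 * (b.1 - r) ∧ z.2 ≤ 2 * b.2 - 1} := ⟨_, rfl⟩
  have mB : ∀ z : Pt, z ∈ B ↔ z.1 ≤ 2 * (b.1 - r) ∧ z.2 ≤ 2 * b.2 - 1 := by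
    intro z; rw [hB]; rfl
  obtain ⟨Ku, hKu⟩ : ∃ Ku : Set Pt, Ku = {z | ∃ (c : Bool) (p : Pt), p.2 = 2 * b.2 ∧
    p.1 ≤ 2 * (b.1 - r) ∧ Conn (Cz b r R ω c) p z} := ⟨_, rfl⟩
  have mKu : ∀ z : Pt, z ∈ Ku ↔ ∃ (c : Bool) (p : Pt), p.2 = 2 * b.2 ∧ p.1 ≤ 2 * (b.1 - r) ∧
    Conn (Cz b r R ω c) p z := by
    intro z; rw [hKu]; rfl
  obtain ⟨K, hK⟩ : ∃ K : Set Pt, K = B ∪ Ku := ⟨_, rfl⟩
  have hBK : B ⊆ K := by rw [hK]; exact Set.subset_union_left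
  have hUK : Ku ⊆ K := by rw [hK]; exact Set.subset_union_right
  have hKuZ : ∀ z ∈ Ku, z ∈ Zs b r R := by
    intro z hz
    rw [mKu] at hz
    obtain ⟨c, p, -, -, h⟩ := hz
    exact h.right_mem.2
  have hBc : ∀ x ∈ B, ∀ y ∈ B, Conn B x y := by
    rintro ⟨i, j⟩ hx ⟨k, l⟩ hy
    rw [mB] at hx hy
    refine (conn_row (j := j) (s := i) (t := k) ?_).trans (conn_col (i := k) (s := j) (t := l) ?_)
    · intro m hm hm'
      rw [mB]
      dsimp only at *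
      omega
    · intro m hm hm'
      rw [mB]
      dsimp only at *
      omega
  have hKc : ∀ x ∈ K, ∀ y ∈ K, Conn K x y := by
    have h0 : ∀ x ∈ K, ∃ z ∈ B, Conn K z x := by
      intro x hx
      rw [hK] at hx
      rcases hx with hx | hx
      · exact ⟨x, hx, Conn.refl (hBK hx)⟩
      · rw [mKu] at hx
        obtain ⟨c, p, p1, p2, p3⟩ := hx
        have h1 : ((p.1, 2 * b.2 - 1) : Pt) ∈ B := (mB _).2 (by dsimp only; omega)
        have h2 : Conn K p x := (conn_trans_closed p3).mono (by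
          intro z hz
          exact hUK ((mKu z).2 ⟨c, p, p1, p2, hz⟩))
        refine ⟨_, h1, ((Conn.refl (hBK h1)).tail ?_ h2.left_mem).trans h2⟩
        rw [adj_iff]
        dsimp only
        omega
    intro x hx y hy
    obtain ⟨z, hz, h1⟩ := h0 x hx
    obtain ⟨z', hz', h2⟩ := h0 y hy
    exact (h1.symm.trans ((hBc z hz z' hz').mono hBK)).trans h2
  -- the right ray
  have hrow : ∀ z ∈ Ku, z.2 = 2 * b.2 → z.1 ≤ 2 * (b.1 - r) := by
    intro z hz hz2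
    have hzZ := hKuZ z hz
    rw [mKu] at hz
    obtain ⟨c, p, p1, p2, p3⟩ := hz
    have cp : ¬ Ctr p := not_ctr_right p1
    have cz : ¬ Ctr z := not_ctr_right hz2
    have hP := nr_proj p3 (w := st p) (w' := st z) (Or.inl ⟨cp, rfl⟩) (Or.inl ⟨cz, rfl⟩)
    have hpZ := p3.left_mem.2
    have hpar := parity_of_mem p3.left_mem.1 cp
    have := H c (st p) (st z) (nr_sr (e := pr c) hpZ (Or.inl ⟨cp, rfl⟩)) (by simp only [st]; omega)
      (by simp only [st]; omega) hpar hP (by simp only [st]; omega)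
    simp only [Zs, Set.mem_ofPred_eq] at hzZ
    simp only [st] at this
    omega
  -- colours
  have hcol : ∀ (c : Bool) (k w : Pt), k ∈ Ku → k ∈ Cz b r R ω c → w ∉ K → Adj k w →
      w ∉ Cz b r R ω c := by
    intro c k w hk hkc hw hkw hwc
    rw [mKu] at hk
    obtain ⟨c', p, p1, p2, p3⟩ := hk
    have := Cz_eq hkc p3.right_mem
    subst this
    exact hw (hUK ((mKu w).2 ⟨c, p, p1, p2, p3.tail hkw hwc⟩))
  have hb : ∀ k w : Pt, k ∈ K → w ∉ K → Adj k w → w ∈ Zs b r R → k ∈ Ku := by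
    intro k w hk hw hkw hwZ
    rw [hK] at hk
    rcases hk with hk | hk
    swap
    · exact hk
    exfalso
    rw [mB] at hk
    rw [adj_iff] at hkw
    have hwZ' := hwZ
    simp only [Zs, Set.mem_ofPred_eq] at hwZ'
    obtain ⟨c, hc⟩ := mem_Cz_or (ω := ω) hwZ
    exact hw (hUK ((mKu w).2 ⟨c, w, by omega, by omega, Conn.refl hc⟩))
  have hwB : ∀ w : Pt, w ∉ K → w.2 ≤ 2 * b.2 - 1 → 2 * (b.1 - r) < w.1 := by
    intro w hw h2
    by_contra hcon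
    exact hw (hBK ((mB w).2 ⟨by omega, h2⟩))
  -- the complement
  have hout : ∀ z : Pt, (z.2 ≤ 2 * b.2 - 1 ∧ 2 * (b.1 - r) < z.1) ∨
      (2 * b.2 ≤ z.2 ∧ (z.1 < 2 * (b.1 - R) ∨ 2 * (b.1 + R) < z.1 ∨ 2 * (b.2 + R) < z.2)) ∨
      (2 * (b.1 + R) < z.1 ∧ z.2 ≤ 2 * b.2) → z ∈ Kᶜ := by
    intro z hz hzK
    rw [hK] at hzK
    rcases hzK with h3 | h3
    · rw [mB] at h3
      omega
    · have := hKuZ z h3
      simp only [Zs, Set.mem_ofPred_eq] at this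
      omega
  have hpath : Conn Kᶜ (2 * (b.1 - r) + 1, 2 * b.2 - 2) (2 * (b.1 - R) - 2, 2 * b.2) := by
    have p1 : Conn Kᶜ (2 * (b.1 - r) + 1, 2 * b.2 - 2) (2 * (b.1 + R) + 1, 2 * b.2 - 2) :=
      conn_row fun i hi hi' => hout _ (by dsimp only; omega)
    have p2 : Conn Kᶜ (2 * (b.1 + R) + 1, 2 * b.2 - 2) (2 * (b.1 + R) + 1, 2 * (b.2 + R) + 1) :=
      conn_col fun i hi hi' => hout _ (by dsimp only; omega)
    have p3 : Conn Kᶜ (2 * (b.1 + R) + 1, 2 * (b.2 + R) + 1) (2 * (b.1 - R) - 2, 2 * (b.2 + R) + 1) :=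
      conn_row fun i hi hi' => hout _ (by dsimp only; omega)
    have p4 : Conn Kᶜ (2 * (b.1 - R) - 2, 2 * (b.2 + R) + 1) (2 * (b.1 - R) - 2, 2 * b.2) :=
      conn_col fun i hi hi' => hout _ (by dsimp only; omega)
    exact ((p1.trans p2).trans p3).trans p4
  have hk0 : ((2 * (b.1 - r), 2 * b.2 - 2) : Pt) ∈ K := hBK ((mB _).2 (by dsimp only; omega))
  have hk1 : ((2 * (b.1 - R) - 2, 2 * b.2 - 1) : Pt) ∈ K := hBK ((mB _).2 (by dsimp only; omega))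
  have a0 : Adj ((2 * (b.1 - r), 2 * b.2 - 2) : Pt) (2 * (b.1 - r) + 1, 2 * b.2 - 2) := by
    rw [adj_iff]; dsimp only; omega
  have a1 : Adj ((2 * (b.1 - R) - 2, 2 * b.2 - 1) : Pt) (2 * (b.1 - R) - 2, 2 * b.2) := by
    rw [adj_iff]; dsimp only; omega
  have hch := chain hKc hk0 hk1 hpath a0 a1
  obtain ⟨Goal, hGoal⟩ : ∃ Goal : Prop, Goal = ∃ (c : Bool) (p ka kb s s' : Pt), p.2 = 2 * b.2 ∧
      p.1 ≤ 2 * (b.1 - r) ∧ Conn (Cz b r R ω c) p ka ∧ Nr (pr c) ka s ∧ nm (s - b) ≤ r ∧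
      Conn (Cz b r R ω c) ka kb ∧ Nr (pr c) kb s' ∧ R ≤ nm (s' - b) := ⟨_, rfl⟩
  have key := chain_ind (K := K) (fun k w => Inn b r w ∨ (w ∈ Zs b r R ∧ k ∈ Ku ∧
      ∃ (c : Bool) (p ka s : Pt), p.2 = 2 * b.2 ∧ p.1 ≤ 2 * (b.1 - r) ∧
        Conn (Cz b r R ω c) p ka ∧ Nr (pr c) ka s ∧ nm (s - b) ≤ r ∧
        Conn (Cz b r R ω c) ka k) ∨ Goal) hk0 hpath.left_mem a0
    (Or.inl (by unfold Inn; dsimp only; omega)) ?_ ?_ hch
  · rcases key with h3 | ⟨h3, -⟩ | h3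
    · unfold Inn at h3; dsimp only at h3; omega
    · simp only [Zs, Set.mem_ofPred_eq] at h3
      omega
    · rw [hGoal] at h3
      obtain ⟨c, p, ka, kb, s, s', g1, g2, g3, g4, g5, g6, g7, g8⟩ := h3
      have cp : ¬ Ctr p := not_ctr_right g1
      have hpZ := g3.left_mem.2
      refine ⟨c, st p, s, s', nr_sr (e := pr c) hpZ (Or.inl ⟨cp, rfl⟩), by simp only [st]; omega,
        by simp only [st]; omega, parity_of_mem g3.left_mem.1 cp,
        nr_proj g3 (Or.inl ⟨cp, rfl⟩) g4, g5, nr_proj g6 g4 g7, g8⟩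
  · -- the vertex of `K` moves
    intro k k' w hk hk' hw hkw hkw' hkk' hQ
    rcases hQ with hQ | ⟨q1, q2, c, p, ka, s, g1, g2, g3, g4, g5, g6⟩ | hQ
    · exact Or.inl hQ
    · right; left
      have hk'u := hb k' w hk' hw hkw' q1
      refine ⟨q1, hk'u, c, p, ka, s, g1, g2, g3, g4, g5, g6.tail hkk' ?_⟩
      obtain ⟨c', hc'⟩ := mem_Cz_or (ω := ω) (hKuZ k' hk'u)
      have w1 := hcol c k w q2 g6.right_mem hw hkw
      have w2 := hcol c' k' w hk'u hc' hw hkw'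
      have w3 : w ∈ Cz b r R ω (!c) := (mem_Cz_not q1).2 w1
      have w4 : w ∈ Cz b r R ω (!c') := (mem_Cz_not q1).2 w2
      rw [bnot_inj (Cz_eq w3 w4)]; exact hc'
    · exact Or.inr (Or.inr hQ)
  · -- the vertex of the complement moves
    intro k w w' hk hw hw' hkw hkw' hww' hQ
    have h5 := hwB w' hw'
    rcases hQ with hQ | ⟨q1, q2, c, p, ka, s, g1, g2, g3, g4, g5, g6⟩ | hQ
    · by_cases hIn' : Inn b r w'
      · exact Or.inl hIn'
      by_cases hwZ : w' ∈ Zs b r R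
      · -- a new coloured pair
        have hku := hb k w' hk hw' hkw' hwZ
        have hku' := hku
        rw [mKu] at hku'
        obtain ⟨c, p, p1, p2, p3⟩ := hku'
        obtain ⟨i1, i2⟩ := inn1 hr (hKuZ k hku) (hrow k hku) hkw hQ
        right; left
        exact ⟨hwZ, hku, c, p, k, st k, p1, p2, p3, Or.inl ⟨i1, rfl⟩, i2, Conn.refl p3.right_mem⟩
      · exfalso
        refine inn2 hr hrR ?_ hkw hkw' hQ hIn' hwZ h5
        rw [hK] at hk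
        rcases hk with hk | hk
        · exact Or.inl ((mB k).1 hk)
        · exact Or.inr ⟨hKuZ k hk, hrow k hk⟩
    · by_cases hIn' : Inn b r w'
      · exact Or.inl hIn'
      by_cases hwZ : w' ∈ Zs b r R
      · right; left
        exact ⟨hwZ, q2, c, p, ka, s, g1, g2, g3, g4, g5, g6⟩
      · right; right
        rw [hGoal]
        obtain ⟨i1, i2⟩ := inn3 (hKuZ k q2) hkw' hIn' hwZ h5
        exact ⟨c, p, ka, k, s, st k, g1, g2, g3, g4, g5, g6, Or.inl ⟨i1, rfl⟩, i2⟩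
    · exact Or.inr (Or.inr hQ)

end Vale.Agent.P167.H192.TA
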