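import Vale.Agent.P167.H192.TA.Left
import Vale.Agent.P167.H192.Clus

/-!
# P167, block TWO-ARM, part 4: exploration of the cluster of a ray, fresh circuits

`ray s c`: sites of colour `c` on the right (`s = true`) or left ray. `Kl s c ω`: its cluster of
colour `c`, `Rl s c ω`: the revealed squares. `stage`: given the explored cluster, which does not
touch the other ray, with probability at least `c0 ^ 2` the other colour joins the inner part to the
outer part of the other ray.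
-/

namespace Vale.Agent.P167.H192.TA

open MeasureTheory Vale.Agent.P145.FB Vale.Agent.P153 Vale.Agent.P153.Topo Vale.Agent.P167
  Vale.Agent.P167.H871 Vale.Agent.P167.H632 Vale.Agent.P167.H558
open Relation

/-! ### Reflection -/

/-- Sign of a side. -/
def sgn (s : Bool) : ℤ := if s then 1 else -1

theorem sgn_or (s : Bool) : sgn s = 1 ∨ sgn s = -1 := by cases s <;> simp [sgn]

theorem sgn_not (s : Bool) : sgn (!s) = - sgn s := by cases s <;> simp [sgn]

/-- The boundary site at distance `t` on the side `s`. -/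
def bp (b : Pt) (s : Bool) (t : ℤ) : Pt := (b.1 + sgn s * t, b.2)

/-- Reflection of the sites. -/
def mr (b w : Pt) : Pt := (2 * b.1 - w.1, w.2)

/-- Reflection of the squares. -/
def mq (b w : Pt) : Pt := (2 * b.1 - 1 - w.1, w.2)

theorem mr_mr (b w : Pt) : mr b (mr b w) = w := by
  refine Prod.ext ?_ rfl
  simp only [mr]; ring

theorem mq_mq (b w : Pt) : mq b (mq b w) = w := by
  refine Prod.ext ?_ rfl
  simp only [mq]; ring

theorem mq_dq {b w : Pt} {r R : ℤ} : mq b w ∈ dq b r R ↔ w ∈ dq b r R := by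
  simp only [dq, mq, Set.mem_ofPred_eq]
  omega

theorem nm_mr (b w : Pt) : nm (mr b w - b) = nm (w - b) := by
  simp only [nm, mr, Prod.fst_sub, Prod.snd_sub]
  congr 1
  rw [← abs_neg]
  congr 1
  ring

theorem step_mr {b u v : Pt} {F : Set Pt} (h : PStep F u v) :
    PStep {w | mq b w ∈ F} (mr b u) (mr b v) := by
  obtain ⟨h1, h2, h3⟩ := h
  refine ⟨by simp only [mr]; omega, h2, ?_⟩
  have e : mq b (min (mr b u).1 (mr b v).1, min (mr b u).2 (mr b v).2) =
      (min u.1 v.1, min u.2 v.2) := by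
    refine Prod.ext ?_ rfl
    simp only [mq, mr]
    omega
  rw [Set.mem_ofPred_eq, e]
  exact h3

theorem pw_mr {b u v : Pt} {r R : ℤ} {F : Set Pt} (h : Pw (F ∩ dq b r R) u v) :
    Pw ({w | mq b w ∈ F} ∩ dq b r R) (mr b u) (mr b v) := by
  induction h with
  | refl => exact ReflTransGen.refl
  | tail _ h ih =>
    have h1 := step_mr (b := b) h
    refine ih.tail ⟨h1.1, h1.2.1, ?_⟩
    have h2 := h1.2.2
    simp only [Set.mem_ofPred_eq, Set.mem_inter_iff, mq_dq] at h2 ⊢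
    exact h2

theorem mr_bp (b : Pt) (t : ℤ) : mr b (bp b false t) = bp b true t := by
  refine Prod.ext ?_ rfl
  simp only [mr, bp, sgn]
  simp
  ring

theorem mr_bp' (b : Pt) (t : ℤ) : mr b (bp b true t) = bp b false t := by
  rw [← mr_bp, mr_mr]

/-- **Circuits around a part of a ray**, both sides. -/
theorem arc_side {F : Set Pt} {b : Pt} {r R m1 m2 e : ℤ} (he : e = 0 ∨ e = 1) (hr : 1 ≤ r)
    (h1 : r < m1) (h12 : m1 ≤ m2) (h2 : m2 ≤ R) (s : Bool)
    (H : ∀ t, m1 ≤ t → t ≤ m2 → ((bp b s t).1 + (bp b s t).2) % 2 = e →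
      ∀ v, Pw (F ∩ dq b r R) (bp b s t) v →
        r < nm (v - b) ∧ nm (v - b) < R ∧ (v.2 = b.2 → 0 < sgn s * (v.1 - b.1))) :
    ∃ t t', r ≤ t ∧ t ≤ m1 ∧ m2 ≤ t' ∧ t' ≤ R ∧ ((bp b s t).1 + (bp b s t).2) % 2 = 1 - e ∧
      Pw (Fᶜ ∩ dq b r R) (bp b s t) (bp b s t') := by
  cases s
  · -- left side: reflect
    obtain ⟨x, x', k1, k2, k3, k4, k5, k6⟩ := arc_dual (F := {w | mq b w ∈ F}) (b := b) he hr h1 h12
      h2 (by
        intro x0 hx1 hx2 hx3 v hv
        have hv' := pw_mr hv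
        have e1 : mr b (x0, b.2) = bp b false (x0 - b.1) := by
          refine Prod.ext ?_ rfl
          simp only [mr, bp, sgn]
          simp
          ring
        have e2 : {w | mq b w ∈ {w | mq b w ∈ F}} = F := by
          ext w
          simp only [Set.mem_ofPred_eq, mq_mq]
        rw [e1, e2] at hv'
        obtain ⟨g1, g2, g3⟩ := H (x0 - b.1) (by omega) (by omega) (by
          simp only [bp, sgn]
          simp
          omega) _ hv'
        rw [nm_mr] at g1 g2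
        refine ⟨g1, g2, fun h => ?_⟩
        have := g3 h
        simp only [mr, sgn] at this
        simp at this
        omega)
    refine ⟨x - b.1, x' - b.1, by omega, by omega, by omega, by omega, ?_, ?_⟩
    · simp only [bp, sgn]
      simp
      omega
    · have h3 := pw_mr k6
      have e1 : ∀ x : ℤ, mr b (x, b.2) = bp b false (x - b.1) := by
        intro x
        refine Prod.ext ?_ rfl
        simp only [mr, bp, sgn]
        simp
        ring
      have e2 : {w | mq b w ∈ {w | mq b w ∈ F}ᶜ} = Fᶜ := by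
        ext w
        simp only [Set.mem_ofPred_eq, Set.mem_compl_iff, mq_mq]
      rw [e1, e1, e2] at h3
      exact h3
  · have e1 : ∀ x : ℤ, (x, b.2) = bp b true (x - b.1) := by
      intro x
      refine Prod.ext ?_ rfl
      simp only [bp, sgn]
      simp
    obtain ⟨x, x', k1, k2, k3, k4, k5, k6⟩ := arc_dual (F := F) (b := b) he hr h1 h12
      h2 (by
        intro x0 hx1 hx2 hx3 v hv
        rw [e1] at hv
        obtain ⟨g1, g2, g3⟩ := H (x0 - b.1) (by omega) (by omega) (by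
          rw [← e1]; exact hx3) _ hv
        refine ⟨g1, g2, fun h => ?_⟩
        have := g3 h
        simp only [sgn] at this
        simp at this
        omega)
    refine ⟨x - b.1, x' - b.1, by omega, by omega, by omega, by omega, ?_, ?_⟩
    · rw [← e1]; exact k5
    · rw [← e1, ← e1]; exact k6

/-! ### The cluster of a ray -/

/-- The squares of the half annulus, as a finite set. -/
noncomputable def dF (b : Pt) (r R : ℤ) : Finset Pt := by
  classical
  exact (Finset.Icc (b.1 - R, b.2) (b.1 + R, b.2 + R)).filter (fun v => v ∈ dq b r R)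

theorem mem_dF {b v : Pt} {r R : ℤ} : v ∈ dF b r R ↔ v ∈ dq b r R := by
  classical
  unfold dF
  rw [Finset.mem_filter, Finset.mem_Icc, Prod.le_def, Prod.le_def]
  simp only [dq, Set.mem_ofPred_eq]
  omega

/-- The sites of colour `c` of a ray. -/
def ray (s c : Bool) (b : Pt) (r R : ℤ) : Set Pt :=
  {p | p ∈ sr b r R ∧ p.2 = b.2 ∧ 0 < sgn s * (p.1 - b.1) ∧ (p.1 + p.2) % 2 = pr c}

/-- The square `i` joins `u` and `v`. -/
def lkk (i u v : Pt) : Prop := PStep {i} u v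

/-- No frozen links. -/
def fzz (_ _ : Pt) : Prop := False

/-- The colour. -/
def coll (c : Bool) (_ : Pt) (x : Bool) : Prop := x = c

/-- The cluster of colour `c` of a set. -/
def Kl (c : Bool) (b : Pt) (r R : ℤ) (B : Set Pt) (ω : Cfg) : Set Pt :=
  Cl (dF b r R) lkk fzz (coll c) B ω

/-- The squares revealed by the cluster. -/
noncomputable def Rl (c : Bool) (b : Pt) (r R : ℤ) (B : Set Pt) (ω : Cfg) : Finset Pt :=
  Rv (dF b r R) lkk fzz (coll c) B ω

theorem stp_iff {c : Bool} {b : Pt} {r R : ℤ} {ω : Cfg} {u v : Pt} :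
    stp (dF b r R) lkk fzz (coll c) ω u v ↔ PStep (cs c ω ∩ dq b r R) u v := by
  unfold stp fzz lkk coll
  constructor
  · rintro (h | ⟨i, hi, hc, h1, h2, h3⟩)
    · exact h.elim
    · rw [Set.mem_singleton_iff] at h3
      refine ⟨h1, h2, ?_⟩
      rw [h3]
      exact ⟨hc, mem_dF.1 hi⟩
  · rintro ⟨h1, h2, h3, h4⟩
    exact Or.inr ⟨_, mem_dF.2 h4, h3, h1, h2, rfl⟩

theorem mem_Kl {c : Bool} {b : Pt} {r R : ℤ} {B : Set Pt} {ω : Cfg} {v : Pt} :
    v ∈ Kl c b r R B ω ↔ ∃ p ∈ B, Pw (cs c ω ∩ dq b r R) p v := by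
  have e : stp (dF b r R) lkk fzz (coll c) ω = PStep (cs c ω ∩ dq b r R) := by
    funext u v
    exact propext stp_iff
  unfold Kl Cl
  rw [e]
  rfl

theorem stop_Rl {c : Bool} {b : Pt} {r R : ℤ} {B : Set Pt} : StopSet (Rl c b r R B) := stop_Rv

theorem past_Kl {c : Bool} {b : Pt} {r R : ℤ} {B : Set Pt} :
    Past (Rl c b r R B) (Kl c b r R B) := past_Cl

/-- Clusters of points of the explored cluster. -/
theorem Kl_point {c : Bool} {b : Pt} {r R : ℤ} {B : Set Pt} {ω ω' : Cfg}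
    (h : ∀ i ∈ Rl c b r R B ω, ω' i = ω i) {y : Pt} (hy : y ∈ Kl c b r R B ω) :
    Kl c b r R {y} ω' = Kl c b r R {y} ω := by
  refine Cl_congr fun i hi => ?_
  obtain ⟨u, ⟨y', hy', hu⟩, v, huv⟩ := hi
  rw [Set.mem_singleton_iff] at hy'
  subst hy'
  have huB : u ∈ Cl (dF b r R) lkk fzz (coll c) B ω := by
    obtain ⟨p, hp, hpy⟩ := hy
    exact ⟨p, hp, hpy.trans hu⟩
  constructor
  · rintro ⟨h1, h2⟩
    refine ⟨h1, ?_⟩
    rw [← h i (mem_Rv.2 ⟨h1, u, huB, v, huv⟩)]
    exact h2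
  · rintro ⟨h1, h2⟩
    refine ⟨h1, ?_⟩
    rw [h i (mem_Rv.2 ⟨h1, u, huB, v, huv⟩)]
    exact h2

/-- Two diagonals of a square with the same parity are equal. -/
theorem diag_eq {i u v u' v' : Pt} (h : PStep {i} u v) (h' : PStep {i} u' v')
    (hp : (u.1 + u.2) % 2 = (u'.1 + u'.2) % 2) : u = u' ∨ v = u' := by
  obtain ⟨h1, h2, h3⟩ := h
  obtain ⟨h1', h2', h3'⟩ := h'
  rw [Set.mem_singleton_iff] at h3 h3'
  have e1 : min u.1 v.1 = min u'.1 v'.1 := by
    have := congrArg Prod.fst (h3.trans h3'.symm); exact this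
  have e2 : min u.2 v.2 = min u'.2 v'.2 := by
    have := congrArg Prod.snd (h3.trans h3'.symm); exact this
  by_cases k : u.1 = u'.1
  · left
    exact Prod.ext k (by omega)
  · right
    exact Prod.ext (by omega) (by omega)

/-- A path of colour `c` which starts off the explored cluster is fresh. -/
theorem fresh_path {c : Bool} {b : Pt} {r R : ℤ} {B : Set Pt} {ω ω' : Cfg}
    (hB : ∀ p ∈ B, (p.1 + p.2) % 2 = pr c) {u v : Pt} (hu : u ∉ Kl c b r R B ω)
    (hpu : (u.1 + u.2) % 2 = pr c)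
    (h : Pw (cs c (glue (↑(Rl c b r R B ω)) ω ω') ∩ dq b r R) u v) :
    v ∉ Kl c b r R B ω ∧ Pw (cs c ω' ∩ dq b r R) u v := by
  have hK : Kl c b r R B (glue (↑(Rl c b r R B ω)) ω ω') = Kl c b r R B ω := past_Kl.glue ω ω'
  induction h with
  | refl => exact ⟨hu, ReflTransGen.refl⟩
  | @tail x y hx hxy ih =>
    obtain ⟨i1, i2⟩ := ih
    have hy : y ∉ Kl c b r R B ω := by
      intro hy
      rw [← hK] at hy i1
      exact i1 (Cl_step hy (stp_iff.2 hxy.symm))
    refine ⟨hy, i2.tail ⟨hxy.1, hxy.2.1, ?_, hxy.2.2.2⟩⟩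
    have hnot : ((min x.1 y.1, min x.2 y.2) : Pt) ∉ Rl c b r R B ω := by
      intro hR
      obtain ⟨-, u0, hu0, v0, huv0⟩ := mem_Rv.1 hR
      have hpx : (x.1 + x.2) % 2 = pr c := by rw [← hpu]; exact (Pw.parity hx).symm
      have hpu0 : (u0.1 + u0.2) % 2 = pr c := by
        obtain ⟨p, hp, hpp⟩ := mem_Kl.1 hu0
        rw [← hB p hp]
        exact hpp.parity.symm
      rcases diag_eq (i := (min x.1 y.1, min x.2 y.2)) (u := x) (v := y) ⟨hxy.1, hxy.2.1, rfl⟩ huv0
        (by omega) with e | e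
      · exact i1 (by rw [e]; exact hu0)
      · exact hy (by rw [e]; exact hu0)
    have h3 : glue (↑(Rl c b r R B ω)) ω ω' (min x.1 y.1, min x.2 y.2) = c := hxy.2.2.1
    rw [glue_not_mem (fun h => hnot (Finset.mem_coe.1 h))] at h3
    exact h3

theorem hx_of_path {c : Bool} {b : Pt} {r R r' R' : ℤ} {ω : Cfg} {y y' : Pt}
    (hrr : r' ≤ R') (hy : y ∈ sr b r R) (hp : (y.1 + y.2) % 2 = pr c)
    (h : Pw (cs c ω ∩ dq b r R) y y') (h1 : nm (y - b) ≤ r') (h2 : R' ≤ nm (y' - b)) :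
    ω ∈ HX c b r' R' := by
  obtain ⟨z, z', k1, k2, k3, k4, -⟩ := crossing hrr (h.pconn hy) h1 h2
  refine ⟨z, z', by rw [← k3.parity, hp], k1, k2, k4.mono subset_rfl ?_⟩
  rintro w ⟨hw1, hw2⟩
  rw [sr_eq] at hw1
  exact ⟨hw1.1, hw2⟩

/-- The event: colour `c` joins the inner part to the outer part of the ray `s`. -/
def Pe (s c : Bool) (b : Pt) (r R m1 m2 : ℤ) : Set Cfg :=
  {ω | ∃ t t', r ≤ t ∧ t ≤ m1 ∧ m2 ≤ t' ∧ t' ≤ R ∧ ((bp b s t).1 + (bp b s t).2) % 2 = pr c ∧
    Pw (cs c ω ∩ dq b r R) (bp b s t) (bp b s t')}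

theorem bp_sr {b : Pt} {s : Bool} {r R t : ℤ} (h1 : r ≤ t) (h2 : t ≤ R) (h0 : 0 ≤ r) :
    bp b s t ∈ sr b r R := by
  simp only [bp, sr, Set.mem_ofPred_eq]
  rcases sgn_or s with e | e <;> rw [e] <;> omega

theorem nm_bp {b : Pt} {s : Bool} {t : ℤ} (h : 0 ≤ t) : nm (bp b s t - b) = t := by
  refine le_antisymm ?_ ?_
  · rw [nm_le]
    simp only [bp, Prod.fst_sub, Prod.snd_sub]
    rcases sgn_or s with e | e <;> rw [e] <;> omega
  · rw [le_nm]
    simp only [bp, Prod.fst_sub, Prod.snd_sub]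
    rcases sgn_or s with e | e <;> rw [e] <;> omega

/-- **The deterministic step.** -/
theorem fresh_arc {s c : Bool} {b : Pt} {r R m1 m2 : ℤ} (hr : 1 ≤ r) (h1 : r < m1) (h12 : m1 ≤ m2)
    (h2 : m2 ≤ R) {ω ω' : Cfg}
    (hY : ∀ q ∈ Kl c b r R (ray s c b r R) ω, q ∉ ray (!s) c b r R)
    (hi : ω' ∈ HC (!c) b r m1) (ho : ω' ∈ HC (!c) b m2 R) :
    glue (↑(Rl c b r R (ray s c b r R) ω)) ω ω' ∈ Pe (!s) (!c) b r R m1 m2 := by
  rw [HC_eq, Bool.not_not] at hi ho
  have key := arc_side (F := cs c (glue (↑(Rl c b r R (ray s c b r R) ω)) ω ω')) (b := b)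
    (pr_or c) hr h1 h12 h2 (!s) (by
      intro t ht1 ht2 htp v hv
      have hsr : bp b (!s) t ∈ sr b r R := bp_sr (by omega) (by omega) (by omega)
      have hray : bp b (!s) t ∈ ray (!s) c b r R := by
        refine ⟨hsr, rfl, ?_, htp⟩
        simp only [bp]
        rcases sgn_or (!s) with e | e <;> rw [e] <;> omega
      have hK : bp b (!s) t ∉ Kl c b r R (ray s c b r R) ω := fun h => hY _ h hray
      obtain ⟨k1, k2⟩ := fresh_path (fun p hp => hp.2.2.2) hK htp hv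
      have hvs := k2.mem_sr hsr
      have hvp : (v.1 + v.2) % 2 = pr c := by rw [← htp]; exact k2.parity.symm
      have hn : nm (bp b (!s) t - b) = t := nm_bp (by omega)
      refine ⟨?_, ?_, ?_⟩
      · by_contra hcon
        exact hi (hx_of_path (by omega) hvs hvp k2.symm (by omega) (by omega))
      · by_contra hcon
        exact ho (hx_of_path h2 hsr htp k2 (by omega) (by omega))
      · intro hv2
        by_contra hcon
        refine k1 (Cl_base ⟨hvs, hv2, ?_, hvp⟩)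
        rw [sgn_not] at hcon
        simp only [sr, Set.mem_ofPred_eq] at hvs
        rcases sgn_or s with e | e <;> rw [e] at hcon ⊢ <;> omega)
  obtain ⟨t, t', g1, g2, g3, g4, g5, g6⟩ := key
  rw [cs_compl] at g6
  exact ⟨t, t', g1, g2, g3, g4, by rw [g5, pr_not], g6⟩

/-! ### Dependence on finitely many squares -/

theorem pw_congr {c : Bool} {b : Pt} {r R : ℤ} {ω ω' : Cfg} (h : ∀ v ∈ dF b r R, ω v = ω' v)
    {u v : Pt} (huv : Pw (cs c ω ∩ dq b r R) u v) : Pw (cs c ω' ∩ dq b r R) u v := by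
  refine huv.mono ?_
  rintro w ⟨hw1, hw2⟩
  refine ⟨?_, hw2⟩
  have := h w (mem_dF.2 hw2)
  simp only [cs, Set.mem_ofPred_eq] at hw1 ⊢
  rw [← this]; exact hw1

theorem dep_Pe {s c : Bool} {b : Pt} {r R m1 m2 : ℤ} : Dep (dF b r R) (Pe s c b r R m1 m2) := by
  rintro o o' ho ⟨t, t', g1, g2, g3, g4, g5, g6⟩
  exact ⟨t, t', g1, g2, g3, g4, g5, pw_congr ho g6⟩

theorem mu_eq_Pm : (μ : Measure Cfg) = Pm fair (ℤ × ℤ) := rfl

/-- **One stage.** -/
theorem stage {c0 : ℝ} (hc0 : 0 < c0)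
    (hc : ∀ (c : Bool) (b : Pt) (r R : ℤ), 1 ≤ r → 8 * r ≤ R → c0 ≤ μ.real (HC c b r R))
    {s c : Bool} {b : Pt} {r R : ℤ} (hr : 1 ≤ r) (hR : 8 * r + 1 < R / 8) {Y : Cfg → Prop}
    (hYp : Past (Rl c b r R (ray s c b r R)) Y)
    (hY : ∀ ω, Y ω → ∀ q ∈ Kl c b r R (ray s c b r R) ω, q ∉ ray (!s) c b r R) :
    c0 ^ 2 * μ.real {ω | Y ω} ≤ μ.real ({ω | Y ω} ∩ Pe (!s) (!c) b r R (8 * r) (R / 8)) := by
  have hp := fair_mu.prob
  have h1 := hc (!c) b r (8 * r) hr le_rfl
  have h2 := hc (!c) b (R / 8) R (by omega) (by omega)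
  have h3 : μ.real (HC (!c) b r (8 * r) ∩ HC (!c) b (R / 8) R) =
      μ.real (HC (!c) b r (8 * r)) * μ.real (HC (!c) b (R / 8) R) :=
    fair_mu.indep (disj_aq (by omega)) (dep_HC _ _ _ _) (dep_HC _ _ _ _)
  have h4 : c0 ^ 2 ≤ μ.real (HC (!c) b r (8 * r) ∩ HC (!c) b (R / 8) R) := by
    rw [h3, sq]
    exact mul_le_mul h1 h2 hc0.le (hc0.le.trans h1)
  have h5 := le_stop fair (R := Rl c b r R (ray s c b r R)) stop_Rl (Y := Y) hYp
    (B := Pe (!s) (!c) b r R (8 * r) (R / 8)) (dep_Pe (s := !s) (c := !c)).meas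
    (q := μ (HC (!c) b r (8 * r) ∩ HC (!c) b (R / 8) R)) (by
      intro ω hω
      rw [mu_eq_Pm]
      refine measure_mono ?_
      rintro ω' ⟨hi, ho⟩
      exact fresh_arc hr (by omega) (by omega) (by omega) (hY ω hω) hi ho)
  rw [← mu_eq_Pm] at h5
  have h6 : μ.real (HC (!c) b r (8 * r) ∩ HC (!c) b (R / 8) R) * μ.real {ω | Y ω} ≤
      μ.real ({ω | Y ω} ∩ Pe (!s) (!c) b r R (8 * r) (R / 8)) := by
    unfold Measure.real
    rw [← ENNReal.toReal_mul]
    exact ENNReal.toReal_mono (measure_ne_top _ _) h5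
  exact (mul_le_mul_of_nonneg_right h4 measureReal_nonneg).trans h6

end Vale.Agent.P167.H192.TA
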